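import Mathlib
import Crest.Agent.N255.Dr.Pb

-- ▼ part N255/Ts/Abs
section

/-!
# Row 255, core (helper22): the abstract dichotomy

`V` has a basis indexed by `ℤ × M` (`u`-exponent, monomial), `B` is the residue pairing.
-/

set_option autoImplicit false

namespace N255.Ts

open Module

variable {k V I : Type*} [Field k] [AddCommGroup V] [Module k V]

/-- the span of the basis vectors with index in `T` -/
def Sp (e : Basis I k V) (T : Set I) : Submodule k V := Submodule.span k (e '' T)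

theorem mem_Sp {e : Basis I k V} {T : Set I} {v : V} :
    v ∈ Sp e T ↔ ∀ x, x ∉ T → e.repr v x = 0 := by
  rw [Sp, Basis.mem_span_image]
  exact ⟨fun h x hx => by_contra fun h0 => hx (h (Finsupp.mem_support_iff.2 h0)),
    fun h x hx => by_contra fun h0 => Finsupp.mem_support_iff.1 hx (h x h0)⟩

theorem basis_mem_Sp {e : Basis I k V} {T : Set I} {x : I} (hx : x ∈ T) : e x ∈ Sp e T :=
  Submodule.subset_span ⟨x, hx, rfl⟩

theorem Sp_mono {e : Basis I k V} {T T' : Set I} (h : T ⊆ T') : Sp e T ≤ Sp e T' :=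
  Submodule.span_mono (Set.image_mono h)

theorem Sp_le {W : Type*} [AddCommGroup W] [Module k W] {e : Basis I k V} {T : Set I}
    {f : V →ₗ[k] W} {N : Submodule k W} (h : ∀ x ∈ T, f (e x) ∈ N) {v : V} (hv : v ∈ Sp e T) :
    f v ∈ N :=
  (Submodule.span_le.2 (by rintro _ ⟨x, hx, rfl⟩; exact h x hx) : Sp e T ≤ N.comap f) hv

open Classical in
/-- the projection onto `Sp e T` -/
noncomputable def pr (e : Basis I k V) (T : Set I) : V →ₗ[k] V :=
  e.constr k fun x => if x ∈ T then e x else 0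

open Classical in
theorem pr_basis (e : Basis I k V) (T : Set I) (x : I) :
    pr e T (e x) = if x ∈ T then e x else 0 := by
  rw [pr, Basis.constr_basis]

open Classical in
theorem repr_pr (e : Basis I k V) (T : Set I) (v : V) (x : I) :
    e.repr (pr e T v) x = if x ∈ T then e.repr v x else 0 := by
  have : e.coord x ∘ₗ pr e T = if x ∈ T then e.coord x else 0 := e.ext fun y => by
    rw [LinearMap.comp_apply, pr_basis]
    by_cases hxy : y = x
    · subst hxy
      split_ifs <;> simp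
    · split_ifs <;> simp [Finsupp.single_eq_of_ne (Ne.symm hxy)]
  have h := LinearMap.congr_fun this v
  split_ifs at h ⊢ <;> simpa using h

theorem pr_mem (e : Basis I k V) (T : Set I) (v : V) : pr e T v ∈ Sp e T :=
  mem_Sp.2 fun x hx => by rw [repr_pr, if_neg hx]

theorem sub_pr_mem (e : Basis I k V) (T : Set I) (v : V) : v - pr e T v ∈ Sp e Tᶜ :=
  mem_Sp.2 fun x hx => by
    rw [map_sub, Finsupp.sub_apply, repr_pr, if_pos (not_not.1 hx), sub_self]

theorem pr_of_mem {e : Basis I k V} {T : Set I} {v : V} (hv : v ∈ Sp e T) : pr e T v = v :=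
  e.ext_elem fun x => by
    rw [repr_pr]
    split_ifs with h
    · rfl
    · exact (mem_Sp.1 hv x h).symm

theorem pr_of_mem_compl {e : Basis I k V} {T : Set I} {v : V} (hv : v ∈ Sp e Tᶜ) :
    pr e T v = 0 :=
  e.ext_elem fun x => by
    rw [repr_pr]
    split_ifs with h
    · simpa using mem_Sp.1 hv x (not_not.2 h)
    · simp

theorem pr_mem_inter {e : Basis I k V} {T T' : Set I} {v : V} (hv : v ∈ Sp e T') :
    pr e T v ∈ Sp e (T ∩ T') :=
  mem_Sp.2 fun x hx => by
    rw [repr_pr]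
    split_ifs with h
    · exact mem_Sp.1 hv x fun h' => hx ⟨h, h'⟩
    · rfl

/-- an operator that preserves `Sp T` and `Sp Tᶜ` commutes with the projection -/
theorem pr_comm {e : Basis I k V} {T : Set I} {f : V →ₗ[k] V}
    (h1 : ∀ x ∈ T, f (e x) ∈ Sp e T) (h2 : ∀ x, x ∉ T → f (e x) ∈ Sp e Tᶜ) (v : V) :
    pr e T (f v) = f (pr e T v) := by
  have h : f v = f (pr e T v) + f (v - pr e T v) := by rw [← map_add, add_sub_cancel]
  rw [h, map_add, pr_of_mem (Sp_le h1 (pr_mem e T v)),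
    pr_of_mem_compl (Sp_le h2 (sub_pr_mem e T v)), add_zero]

/-- a monomial perfect pairing -/
structure Pf (e : Basis I k V) (B : V →ₗ[k] V →ₗ[k] k) (c : I → I) : Prop where
  cc : ∀ x, c (c x) = x
  ne : ∀ x, B (e x) (e (c x)) ≠ 0
  eq : ∀ x y, y ≠ c x → B (e x) (e y) = 0

namespace Pf

variable {e : Basis I k V} {B : V →ₗ[k] V →ₗ[k] k} {c : I → I}

theorem right (h : Pf e B c) (x : I) (v : V) :
    B (e x) v = B (e x) (e (c x)) * e.repr v (c x) := by
  have : B (e x) = B (e x) (e (c x)) • e.coord (c x) := e.ext fun y => by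
    by_cases hy : y = c x
    · subst hy; simp
    · simp [h.eq x y hy, Finsupp.single_eq_of_ne (Ne.symm hy)]
  conv_lhs => rw [this]
  simp

theorem left (h : Pf e B c) (x : I) (v : V) :
    B v (e (c x)) = B (e x) (e (c x)) * e.repr v x := by
  have : B.flip (e (c x)) = B (e x) (e (c x)) • e.coord x := e.ext fun y => by
    by_cases hy : y = x
    · subst hy; simp
    · have : c x ≠ c y := fun h' => hy (by rw [← h.cc y, ← h', h.cc])
      simp [h.eq y _ this, Finsupp.single_eq_of_ne (Ne.symm hy)]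
  simpa using LinearMap.congr_fun this v

theorem perp (h : Pf e B c) {T : Set I} {v : V} (hv : ∀ x ∈ T, B (e x) v = 0) :
    v ∈ Sp e {y | c y ∉ T} :=
  mem_Sp.2 fun y hy => by
    have h1 := hv (c y) (not_not.1 hy)
    rw [h.right, h.cc] at h1
    exact (mul_eq_zero.1 h1).resolve_left (by simpa only [h.cc] using h.ne (c y))

theorem nondeg (h : Pf e B c) {v : V} (hv : ∀ z, B z v = 0) : v = 0 := by
  have := h.perp (T := Set.univ) fun x _ => hv _
  simpa [Sp] using this

/-- functionals with finite support are represented -/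
theorem rep (h : Pf e B c) (f : V →ₗ[k] k) (hf : {x | f (e x) ≠ 0}.Finite) :
    ∃ v, ∀ z, B z v = f z := by
  refine ⟨∑ x ∈ hf.toFinset, (f (e x) / B (e x) (e (c x))) • e (c x), fun z => ?_⟩
  refine LinearMap.congr_fun (f := B.flip _) (g := f) (e.ext fun y => ?_) z
  rw [LinearMap.flip_apply, map_sum, Finset.sum_eq_single y]
  · rw [map_smul, smul_eq_mul, div_mul_cancel₀ _ (h.ne y)]
  · intro x _ hxy
    rw [map_smul, h.eq y (c x) fun h' => hxy (by rw [← h.cc x, h', h.cc]), smul_zero]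
  · intro hy
    have : f (e y) = 0 := by simpa using hy
    simp [this]

end Pf

/-- extension of a functional from `L` that kills `Z` -/
theorem exists_ext (L Z : Submodule k V) (g : V →ₗ[k] k) (h : ∀ v ∈ L, v ∈ Z → g v = 0) :
    ∃ f : V →ₗ[k] k, (∀ v ∈ L, f v = g v) ∧ ∀ v ∈ Z, f v = 0 := by
  have h1 : g ∈ (L ⊓ Z).dualAnnihilator :=
    (Submodule.mem_dualAnnihilator _).2 fun v hv => h v hv.1 hv.2
  rw [Subspace.dualAnnihilator_inf_eq, Submodule.mem_sup] at h1
  obtain ⟨a, ha, f, hf, rfl⟩ := h1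
  exact ⟨f, fun v hv => by
    rw [LinearMap.add_apply, (Submodule.mem_dualAnnihilator _).1 ha v hv, zero_add],
    (Submodule.mem_dualAnnihilator _).1 hf⟩


/-- a functional restricted to a window of `u`-degrees is represented -/
theorem Pf.rep_win {M : Type*} [Finite M] {e : Basis (ℤ × M) k V} {B : V →ₗ[k] V →ₗ[k] k}
    {c : ℤ × M → ℤ × M} (hB : Pf e B c) (f : V →ₗ[k] k) (a b : ℤ) :
    ∃ v, ∀ z, B z v = f (pr e {y | a ≤ y.1 ∧ y.1 ≤ b} z) := by
  refine hB.rep (f ∘ₗ pr e {y | a ≤ y.1 ∧ y.1 ≤ b}) ?_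
  refine ((Set.finite_Icc a b).prod (Set.finite_univ (α := M))).subset ?_
  rintro ⟨n, x⟩ hx
  simp only [Set.mem_ofPred_eq, LinearMap.comp_apply, pr_basis] at hx
  exact ⟨by_contra fun h0 => hx (by rw [if_neg (show ¬(a ≤ n ∧ n ≤ b) from h0), map_zero]),
    trivial⟩

theorem pr_deg {M : Type*} {e : Basis (ℤ × M) k V} {d : V →ₗ[k] V}
    (d1 : ∀ n : ℤ, ∀ x, d (e (n, x)) ∈ Sp e {y | y.1 = n}) (P : ℤ → Prop) (v : V) :
    pr e {y | P y.1} (d v) = d (pr e {y | P y.1} v) :=
  pr_comm (fun x hx => Sp_mono (fun y hy => by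
      simp only [Set.mem_ofPred_eq] at hx hy ⊢; rwa [hy]) (d1 x.1 x.2))
    (fun x hx => Sp_mono (fun y hy => by
      simp only [Set.mem_ofPred_eq, Set.mem_compl_iff] at hx hy ⊢; rwa [hy]) (d1 x.1 x.2)) v

/-- a vector orthogonal to the closed vectors of `Sp S` is exact modulo the annihilator -/
theorem perp_split {M : Type*} [Finite M] {e : Basis (ℤ × M) k V} {B : V →ₗ[k] V →ₗ[k] k}
    {c : ℤ × M → ℤ × M} (hB : Pf e B c) (d : V →ₗ[k] V)
    (hd' : ∀ w, ∃ w', ∀ z, B (d z) w = B z (d w'))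
    (d1 : ∀ n : ℤ, ∀ x, d (e (n, x)) ∈ Sp e {y | y.1 = n}) (S : Set (ℤ × M)) {v : V}
    (hv : ∀ w ∈ Sp e S, d w = 0 → B w v = 0) :
    ∃ z s, s ∈ Sp e {y | c y ∉ S} ∧ v = d z + s := by
  obtain ⟨f, f1, f2⟩ := exists_ext (LinearMap.ker d) (Sp e S) (B.flip v)
    fun w h1 h2 => hv w h2 h1
  obtain ⟨a, ha⟩ := (((e.repr v).support.finite_toSet.image fun y => (c y).1)).bddBelow
  obtain ⟨b, hb⟩ := (((e.repr v).support.finite_toSet.image fun y => (c y).1)).bddAbove
  have hw : ∀ z, B (pr e {y | a ≤ y.1 ∧ y.1 ≤ b} z) v = B z v := fun z => by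
    refine LinearMap.congr_fun (f := B.flip v ∘ₗ pr e {y | a ≤ y.1 ∧ y.1 ≤ b}) (g := B.flip v)
      (e.ext fun x => ?_) z
    simp only [LinearMap.comp_apply, pr_basis, LinearMap.flip_apply]
    split_ifs with h
    · rfl
    · rw [map_zero, LinearMap.zero_apply, hB.right]
      have : e.repr v (c x) = 0 := by_contra fun h0 => h
        ⟨ha ⟨c x, Finsupp.mem_support_iff.2 h0, by simp only [hB.cc]⟩,
          hb ⟨c x, Finsupp.mem_support_iff.2 h0, by simp only [hB.cc]⟩⟩
      rw [this, mul_zero]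
  obtain ⟨s, hs⟩ := hB.rep_win f a b
  obtain ⟨φ, hφ⟩ : ∃ φ : V →ₗ[k] k, ∀ z, φ (d z) = B z v - f z := by
    have : B.flip v - f ∈ (LinearMap.ker d).dualAnnihilator :=
      (Submodule.mem_dualAnnihilator _).2 fun w hw => by
        rw [LinearMap.sub_apply, f1 w hw, sub_self]
    rw [← LinearMap.range_dualMap_eq_dualAnnihilator_ker] at this
    obtain ⟨φ, hφ⟩ := this
    exact ⟨φ, fun z => LinearMap.congr_fun hφ z⟩
  obtain ⟨w, hw1⟩ := hB.rep_win φ a b
  obtain ⟨w', hw'⟩ := hd' w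
  refine ⟨w', s, hB.perp fun x hx => ?_, ?_⟩
  · rw [hs, f2 _ (Sp_mono Set.inter_subset_right (pr_mem_inter (basis_mem_Sp hx)))]
  · rw [← sub_eq_zero]
    refine hB.nondeg fun z => ?_
    rw [map_sub, map_add, ← hw', hw1, pr_deg d1 fun j => a ≤ j ∧ j ≤ b, hφ, hw, hs]
    ring


end N255.Ts
end

-- ▼ part N255/Dr/Lu

/-! Forms with coefficients in Laurent polynomials `k[u, u⁻¹]`: the `k`-basis `u^j z^a dz^S`,
spans of monomials, weights. -/

set_option autoImplicit false

namespace N255.Dr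

open Finset Module LaurentPolynomial N255.Ts

/-- Laurent polynomials in `u = T 1` -/
abbrev LA (k : Type) [Field k] : Type := LaurentPolynomial k

instance factLA {p : ℕ} {k : Type} [Field k] [h : Fact ((p : k) = 0)] : Fact ((p : LA k) = 0) :=
  ⟨by rw [← map_natCast (algebraMap k (LA k)), h.out, map_zero]⟩

/-- index set of the monomial basis -/
abbrev Ix (p : ℕ) (σ : Type) : Type := ℤ × ((σ → Fin p) × Finset σ)

/-- coefficient of `u ^ j` -/
noncomputable def cT {k : Type} [Field k] (j : ℤ) : LA k →ₗ[k] k :=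
  (AddMonoidAlgebra.basis ℤ k).coord j

theorem cT_apply {k : Type} [Field k] (j : ℤ) (f : LA k) : cT j f = f.coeff j := rfl

theorem cT_T {k : Type} [Field k] (j n : ℤ) : cT j (T n : LA k) = if j = n then 1 else 0 := by
  have : (T n : LA k) = AddMonoidAlgebra.basis ℤ k n := rfl
  rw [this, cT, Basis.coord_apply, Basis.repr_self, Finsupp.single_apply]
  simp only [eq_comm]

theorem cT_T_mul {k : Type} [Field k] (j n : ℤ) (f : LA k) : cT j (T n * f) = cT (j - n) f := by
  have : cT j ∘ₗ LinearMap.mulLeft k (T n : LA k) = cT (j - n) := by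
    refine (AddMonoidAlgebra.basis ℤ k).ext fun m => ?_
    change cT j (T n * T m) = cT (j - n) (T m)
    rw [← T_add, cT_T, cT_T]
    exact if_congr (by omega) rfl rfl
  exact congrArg (fun L : LA k →ₗ[k] k => L f) this

theorem cT_algebraMap {k : Type} [Field k] (j : ℤ) (c : k) :
    cT j (algebraMap k (LA k) c) = if j = 0 then c else 0 := by
  rw [Algebra.algebraMap_eq_smul_one, map_smul, ← T_zero, cT_T]
  split_ifs <;> simp


namespace O
variable {p : ℕ} {K : Type} [CommRing K] {σ τ ρ : Type}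

theorem map_zm [Fintype σ] {B F : Type*} [CommRing B] [FunLike F (O p K σ) B]
    [RingHomClass F (O p K σ) B] (φ : F) (a : σ → ℕ) : φ (zm a) = ∏ i, φ (z i) ^ a i := by
  simp [zm, map_prod]

theorem bc_zm [Fintype σ] (K' : Type) [CommRing K'] [Algebra K K'] (a : σ → ℕ) :
    bc K' (zm a : O p K σ) = zm a := by
  simp [zm, map_prod]

theorem cf_bc [Fintype σ] (K' : Type) [CommRing K'] [Algebra K K'] (a : σ → ℕ) (f : O p K σ) :
    cf a (bc K' f) = algebraMap K K' (cf a f) := by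
  classical
  induction f using induction_zm with
  | h0 => simp
  | hadd f g hf hg => simp only [map_add, hf, hg]
  | hm c b _ =>
    rw [map_smul, bc_zm, ← algebraMap_smul K' c, map_smul, map_smul, cf_zm, cf_zm]
    split_ifs <;> simp

theorem bc_mem_pow (K' : Type) [CommRing K'] [Algebra K K'] {n : ℕ} {f : O p K σ}
    (h : f ∈ (mx : Ideal (O p K σ)) ^ n) : bc K' f ∈ (mx : Ideal (O p K' σ)) ^ n :=
  map_mx_pow (bc K') (fun i => by simpa using z_mem i) h

theorem bc_mem (K' : Type) [CommRing K'] [Algebra K K'] {f : O p K σ}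
    (h : f ∈ (mx : Ideal (O p K σ))) : bc K' f ∈ (mx : Ideal (O p K' σ)) :=
  map_mx (bc K') (fun i => by simpa using z_mem i) h

/-- base change of an algebra map -/
noncomputable def bcH (K' : Type) [CommRing K'] [Algebra K K'] (φ : O p K σ →ₐ[K] O p K τ) :
    O p K' σ →ₐ[K'] O p K' τ :=
  lift (fun i => bc K' (φ (z i))) fun i => by
    rw [← map_pow, ← map_pow, z_pow, map_zero, map_zero]

@[simp] theorem bcH_z (K' : Type) [CommRing K'] [Algebra K K'] (φ : O p K σ →ₐ[K] O p K τ)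
    (i : σ) : bcH K' φ (z i) = bc K' (φ (z i)) := lift_z _ _ _

@[simp] theorem bcH_bc (K' : Type) [CommRing K'] [Algebra K K'] (φ : O p K σ →ₐ[K] O p K τ)
    (f : O p K σ) : bcH K' φ (bc K' f) = bc K' (φ f) := by
  have : ((bcH K' φ).restrictScalars K).comp (bc K') = (bc K').comp φ := hom_ext (by simp)
  exact congrArg (fun g : O p K σ →ₐ[K] O p K' τ => g f) this


/-- coefficients of low degree vanish on powers of the maximal ideal -/
theorem cf_eq_zero_of_mem_pow [Fintype σ] {n : ℕ} {f : O p K σ}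
    (h : f ∈ (mx : Ideal (O p K σ)) ^ n) {a : σ → ℕ} (ha : ∑ i, a i < n) : cf a f = 0 := by
  classical
  have key : ∀ (i : σ) (g : O p K σ) (b : σ → ℕ), cf b (z i * g) ≠ 0 →
      0 < b i ∧ cf (b - Pi.single i 1) g ≠ 0 := by
    intro i g b hb
    rw [← sum_cf g, mul_sum, map_sum] at hb
    obtain ⟨c, hc, hne⟩ := exists_ne_zero_of_sum_ne_zero hb
    rw [mul_smul_comm, map_smul, ← pow_one (z i), ← zm_single, ← zm_add, cf_zm] at hne
    split_ifs at hne with h1
    · obtain ⟨rfl, -⟩ := h1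
      refine ⟨by simp, ?_⟩
      simpa using hne
    · simp at hne
  induction n generalizing f a with
  | zero => omega
  | succ n ih =>
    rw [pow_succ'] at h
    refine Submodule.mul_induction_on (C := fun f => cf a f = 0) h ?_
      (fun x y hx hy => by rw [map_add, hx, hy, add_zero])
    intro m hm g hg
    induction hm using Submodule.span_induction generalizing g with
    | mem x hx =>
      obtain ⟨i, rfl⟩ := hx
      by_contra hne
      obtain ⟨h1, h2⟩ := key i g a hne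
      refine h2 (ih hg ?_)
      have h3 : ∑ j, a j = ∑ j, (a - Pi.single i 1 : σ → ℕ) j + ∑ j, (Pi.single i 1 : σ → ℕ) j := by
        rw [← sum_add_distrib]
        refine sum_congr rfl fun j _ => ?_
        by_cases hj : j = i
        · subst hj; simp; omega
        · simp [Pi.single_eq_of_ne hj]
      rw [Finset.sum_pi_single', if_pos (mem_univ i)] at h3
      omega
    | zero => simp
    | add x y _ _ hx hy => rw [add_mul, map_add, hx g hg, hy g hg, add_zero]
    | smul r x _ hx =>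
      rw [smul_eq_mul, mul_comm r, mul_assoc]
      exact hx _ (Ideal.mul_mem_left _ _ hg)

theorem mem_pow_of_cf [Fintype σ] {n : ℕ} {f : O p K σ}
    (h : ∀ a : σ → ℕ, ∑ i, a i < n → cf a f = 0) : f ∈ (mx : Ideal (O p K σ)) ^ n := by
  classical
  rw [← sum_cf f]
  refine Ideal.sum_mem _ fun a _ => ?_
  by_cases ha : ∑ i, a i < n
  · rw [h a ha, zero_smul]; exact zero_mem _
  · rw [Algebra.smul_def]
    exact Ideal.mul_mem_left _ _ (Ideal.pow_le_pow_right (not_lt.1 ha) (zm_mem_pow a))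

theorem exists_mul_of_two_le [Fintype σ] {a : σ → ℕ} (ha : 2 ≤ ∑ i, a i) :
    ∃ x ∈ (mx : Ideal (O p K σ)), ∃ y ∈ (mx : Ideal (O p K σ)), zm a = x * y := by
  classical
  obtain ⟨i, -, hi⟩ := exists_ne_zero_of_sum_ne_zero (s := univ) (f := a) (by omega)
  have h1 : a = Pi.single i 1 + (a - Pi.single i 1) := by
    funext j
    by_cases hj : j = i
    · subst hj; simp; omega
    · simp [Pi.single_eq_of_ne hj]
  refine ⟨z i, z_mem i, zm (a - Pi.single i 1), ?_, ?_⟩
  · refine Ideal.pow_le_self ?_ (zm_mem_pow _)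
    have h3 := congrArg (fun b : σ → ℕ => ∑ j, b j) h1
    simp only [Pi.add_apply, sum_add_distrib] at h3
    rw [Finset.sum_pi_single', if_pos (mem_univ i)] at h3
    omega
  · conv_lhs => rw [h1, zm_add, zm_single, pow_one]

/-- the exponential of a monomial -/
theorem E_monomial [Fact p.Prime] [Fact ((p : K) = 0)] [Fintype σ] (c : K) {a : σ → ℕ}
    (ha : 2 ≤ ∑ i, a i) : E (c • zm a : O p K σ) = tx p (c • zm a) := by
  obtain ⟨x, hx, y, hy, h⟩ := exists_mul_of_two_le (p := p) (K := K) ha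
  rw [h, ← smul_mul_assoc]
  refine E_mul ?_ hy
  rw [Algebra.smul_def]; exact Ideal.mul_mem_left _ _ hx

end O

namespace Om
variable {p : ℕ} {k : Type} [Field k] {σ τ : Type} [Fintype σ] [Fintype τ]

/-- the monomial `u^j z^a dz^S` -/
noncomputable def mu (j : ℤ) (a : σ → ℕ) (S : Finset σ) : Om p (LA k) σ := (T j : LA k) • mon a S

/-- the coefficient of `u^j z^a dz^S` -/
noncomputable def cu (j : ℤ) (a : σ → ℕ) (S : Finset σ) : Om p (LA k) σ →ₗ[k] k :=
  cT j ∘ₗ (co a S).restrictScalars k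

theorem cu_apply (j : ℤ) (a : σ → ℕ) (S : Finset σ) (ω : Om p (LA k) σ) :
    cu j a S ω = cT j (co a S ω) := rfl

/-- the monomial basis over `k` -/
noncomputable def ub : Basis (Ix p σ) k (Om p (LA k) σ) :=
  (AddMonoidAlgebra.basis ℤ k).smulTower bas

theorem ub_apply (x : Ix p σ) :
    (ub x : Om p (LA k) σ) = mu x.1 (fun i => (x.2.1 i : ℕ)) x.2.2 := by
  rw [ub, Basis.smulTower_apply, bas_apply]; rfl

theorem ub_repr (ω : Om p (LA k) σ) (x : Ix p σ) :
    ub.repr ω x = cu x.1 (fun i => (x.2.1 i : ℕ)) x.2.2 ω := by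
  classical
  rw [ub, Basis.smulTower_repr, bas_repr]; rfl

theorem mu_eq_zero {a : σ → ℕ} (h : ¬ ∀ i, a i < p) (j : ℤ) (S : Finset σ) :
    (mu j a S : Om p (LA k) σ) = 0 := by rw [mu, mon_eq_zero h, smul_zero]

theorem cu_of_not {a : σ → ℕ} (h : ¬ ∀ i, a i < p) (j : ℤ) (S : Finset σ) (ω : Om p (LA k) σ) :
    cu j a S ω = 0 := by rw [cu_apply, co_of_not h, map_zero]

@[simp] theorem mu_one : (mu 0 0 ∅ : Om p (LA k) σ) = 1 := by simp [mu]


theorem cu_T_smul (j n : ℤ) (a : σ → ℕ) (S : Finset σ) (ω : Om p (LA k) σ) :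
    cu j a S ((T n : LA k) • ω) = cu (j - n) a S ω := by
  rw [cu_apply, map_smul, smul_eq_mul, cT_T_mul, cu_apply]




theorem mu_mul [DecidableEq σ] (j j' : ℤ) (a b : σ → ℕ) (S S' : Finset σ) :
    (mu j a S : Om p (LA k) σ) * mu j' b S' = sg S S' • mu (j + j') (a + b) (S ∪ S') := by
  rw [mu, mu, mu, smul_mul_smul_comm, mon_mul, T_add, smul_comm]

/-- span of the monomials satisfying a predicate -/
noncomputable def Su (P : ℤ → (σ → ℕ) → Finset σ → Prop) : Submodule k (Om p (LA k) σ) :=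
  Sp ub {x : Ix p σ | P x.1 (fun i => (x.2.1 i : ℕ)) x.2.2}

variable {P Q R : ℤ → (σ → ℕ) → Finset σ → Prop}

theorem mem_Su {ω : Om p (LA k) σ} :
    ω ∈ Su P ↔ ∀ j (a : σ → ℕ) S, cu j a S ω ≠ 0 → P j a S := by
  rw [Su, mem_Sp]
  constructor
  · intro h j a S hne
    by_contra hP
    by_cases ha : ∀ i, a i < p
    · exact hne ((ub_repr ω (j, (fun i => ⟨a i, ha i⟩, S))).symm.trans (h _ hP))
    · exact hne (cu_of_not ha _ _ _)
  · intro h x hx
    rw [ub_repr]
    by_contra hne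
    exact hx (h _ _ _ hne)

theorem mu_mem {j : ℤ} {a : σ → ℕ} {S : Finset σ} (h : (∀ i, a i < p) → P j a S) :
    (mu j a S : Om p (LA k) σ) ∈ Su P := by
  by_cases ha : ∀ i, a i < p
  · have := basis_mem_Sp (e := (ub : Basis (Ix p σ) k (Om p (LA k) σ)))
      (T := {x : Ix p σ | P x.1 (fun i => (x.2.1 i : ℕ)) x.2.2})
      (x := (j, (fun i => ⟨a i, ha i⟩, S))) (h ha)
    rwa [ub_apply] at this
  · rw [mu_eq_zero ha]; exact zero_mem _

theorem Su_mono (h : ∀ j a S, (∀ i, a i < p) → P j a S → Q j a S) :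
    (Su P : Submodule k (Om p (LA k) σ)) ≤ Su Q :=
  Sp_mono fun x hx => h _ _ _ (fun i => (x.2.1 i).2) hx



theorem Su_ind {C : Om p (LA k) σ → Prop} (h0 : C 0)
    (hm : ∀ (c : k) j (a : σ → ℕ) S, (∀ i, a i < p) → P j a S → C (c • mu j a S))
    (hadd : ∀ a b, C a → C b → C (a + b)) {ω : Om p (LA k) σ} (h : ω ∈ Su P) : C ω := by
  have key : ∀ c : k, C (c • ω) := by
    induction h using Submodule.span_induction with
    | mem x hx =>
      obtain ⟨y, hy, rfl⟩ := hx
      intro c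
      rw [ub_apply]
      exact hm c _ _ _ (fun i => (y.2.1 i).2) hy
    | zero => intro c; rw [smul_zero]; exact h0
    | add x y _ _ hx hy => intro c; rw [smul_add]; exact hadd _ _ (hx c) (hy c)
    | smul r x _ hx => intro c; rw [smul_smul]; exact hx _
  simpa using key 1

theorem Su_le {W : Type*} [AddCommGroup W] [Module k W] {f : Om p (LA k) σ →ₗ[k] W}
    {N : Submodule k W} (h : ∀ j (a : σ → ℕ) S, (∀ i, a i < p) → P j a S → f (mu j a S) ∈ N)
    {ω : Om p (LA k) σ} (hω : ω ∈ Su P) : f ω ∈ N :=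
  Su_ind (C := fun ω => f ω ∈ N) (by simp)
    (fun c j a S ha hP => by rw [map_smul]; exact N.smul_mem c (h j a S ha hP))
    (fun a b ha hb => by rw [map_add]; exact N.add_mem ha hb) hω

theorem Su_mul [DecidableEq σ]
    (h : ∀ j a S j' a' S', P j a S → Q j' a' S' → Disjoint S S' → (∀ i, a i + a' i < p) →
      R (j + j') (a + a') (S ∪ S')) {ω η : Om p (LA k) σ} (hω : ω ∈ Su P) (hη : η ∈ Su Q) :
    ω * η ∈ Su R := by
  refine Su_le (f := LinearMap.mulRight k η) (fun j a S _ hP => ?_) hω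
  refine Su_le (f := LinearMap.mulLeft k (mu j a S)) (fun j' a' S' _ hQ => ?_) hη
  rw [LinearMap.mulLeft_apply, mu_mul]
  by_cases hd : Disjoint S S'
  · exact zsmul_mem (mu_mem fun ha => h _ _ _ _ _ _ hP hQ hd ha) _
  · rw [sg_of_not hd, zero_smul]; exact zero_mem _

theorem Su_T (n : ℤ) (h : ∀ j a S, P j a S → Q (n + j) a S) {ω : Om p (LA k) σ}
    (hω : ω ∈ Su P) : (T n : LA k) • ω ∈ Su Q :=
  mem_Su.2 fun j a S hne => by
    rw [cu_T_smul] at hne
    simpa using h _ _ _ (mem_Su.1 hω _ _ _ hne)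


theorem d_mu [DecidableEq σ] [Fact ((p : k) = 0)] (j : ℤ) (a : σ → ℕ) (S : Finset σ) :
    d (mu j a S : Om p (LA k) σ)
      = ∑ i, (a i * sg {i} S : ℤ) • mu j (a - Pi.single i 1) (insert i S) := by
  rw [mu, map_smul, d_mon, smul_sum]
  exact sum_congr rfl fun i _ => smul_comm _ _ _

theorem Su_d [DecidableEq σ] [Fact ((p : k) = 0)]
    (h : ∀ j a S i, P j a S → 0 < a i → i ∉ S → Q j (a - Pi.single i 1) (insert i S))
    {ω : Om p (LA k) σ} (hω : ω ∈ Su P) : d ω ∈ Su Q := by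
  refine Su_le (f := (d : Om p (LA k) σ →ₗ[LA k] _).restrictScalars k) (fun j a S _ hP => ?_) hω
  change d (mu j a S) ∈ _
  rw [d_mu]
  refine sum_mem fun i _ => ?_
  by_cases h1 : 0 < a i
  · by_cases h2 : i ∈ S
    · rw [sg_of_not (by simpa using h2)]; simp
    · exact zsmul_mem (mu_mem fun _ => h _ _ _ _ hP h1 h2) _
  · have : a i = 0 := by omega
    simp [this]

theorem co_fn [DecidableEq σ] {K : Type} [CommRing K] (a : σ → ℕ) (S : Finset σ) (f : O p K σ) :
    co a S (fn f) = if S = ∅ then O.cf a f else 0 := by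
  rw [← mul_one (fn f), fn_mul, ← e_empty, co_apply, map_smul, cE_e]
  split_ifs <;> simp

theorem fn_mem_Su {f : O p (LA k) σ} :
    fn f ∈ Su P ↔ ∀ j a, cT j (O.cf a f) ≠ 0 → P j a ∅ := by
  classical
  rw [mem_Su]
  constructor
  · intro h j a hne
    exact h j a ∅ (by rwa [cu_apply, co_fn, if_pos rfl])
  · intro h j a S hne
    rw [cu_apply, co_fn] at hne
    split_ifs at hne with hS
    · subst hS; exact h j a hne
    · simp at hne

theorem fn_bc_mem {f : O p k σ} (h : ∀ a, O.cf a f ≠ 0 → P 0 a ∅) :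
    fn (O.bc (LA k) f) ∈ Su P :=
  fn_mem_Su.2 fun j a hne => by
    rw [O.cf_bc, cT_algebraMap] at hne
    split_ifs at hne with hj
    · subst hj; exact h a hne
    · exact absurd rfl hne


theorem fn_T_smul (j : ℤ) (a : σ → ℕ) :
    fn ((T j : LA k) • (O.zm a : O p (LA k) σ)) = mu j a ∅ := by
  rw [fn_smul, mu, mon_empty]




/-- the projection onto the monomials satisfying a predicate -/
noncomputable def pu (P : ℤ → (σ → ℕ) → Finset σ → Prop) : Om p (LA k) σ →ₗ[k] Om p (LA k) σ :=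
  pr ub {x : Ix p σ | P x.1 (fun i => (x.2.1 i : ℕ)) x.2.2}









theorem int_mu_mul [DecidableEq σ] [Fact p.Prime] (j j' : ℤ) (a b : σ → ℕ) (S S' : Finset σ) :
    int ((mu j a S : Om p (LA k) σ) * mu j' b S')
      = if a + b = top p σ ∧ S' = Sᶜ then sg S Sᶜ • (T (j + j') : LA k) else 0 := by
  rw [mu, mu, smul_mul_smul_comm, map_smul, int_mon_mul, T_add]
  split_ifs
  · rw [smul_eq_mul, zsmul_eq_mul, mul_comm]
  · rw [smul_zero]

end Om

end N255.Dr
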