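import Crest.Agent.N255.Dr.Lu

/-! Weights on monomial forms; behaviour of pull back and of the exponential. -/

set_option autoImplicit false

namespace N255.Dr

open Finset Module LaurentPolynomial N255.Ts

/-- additive weight of the monomial `u^j z^a dz^S` -/
def gw {W σ : Type} [AddCommGroup W] [Fintype σ] (wu : W) (wz wd : σ → W) (j : ℤ) (a : σ → ℕ)
    (S : Finset σ) : W := j • wu + ∑ i, a i • wz i + ∑ i ∈ S, wd i

section Gw
variable {W σ : Type} [AddCommGroup W] [Fintype σ] (wu : W) (wz wd : σ → W)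

theorem gw_add [DecidableEq σ] (j j' : ℤ) (a a' : σ → ℕ) {S S' : Finset σ} (h : Disjoint S S') :
    gw wu wz wd (j + j') (a + a') (S ∪ S') = gw wu wz wd j a S + gw wu wz wd j' a' S' := by
  simp only [gw, add_smul, Pi.add_apply, sum_add_distrib, sum_union h]
  abel

@[simp] theorem gw_zero : gw wu wz wd 0 0 ∅ = 0 := by simp [gw]

theorem gw_T (n j : ℤ) (a : σ → ℕ) (S : Finset σ) :
    gw wu wz wd (n + j) a S = n • wu + gw wu wz wd j a S := by
  simp only [gw, add_smul]; abel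

theorem sum_single_smul [DecidableEq σ] (i : σ) (n : ℕ) :
    ∑ j, (Pi.single i n : σ → ℕ) j • wz j = n • wz i := by
  rw [Finset.sum_eq_single i]
  · simp
  · intro j _ hj; simp [Pi.single_eq_of_ne hj]
  · simp



omit [Fintype σ] in
theorem sub_single_add [DecidableEq σ] {a : σ → ℕ} {i : σ} (h : 0 < a i) :
    a - Pi.single i 1 + Pi.single i 1 = a := by
  funext j
  by_cases hj : j = i
  · subst hj; simp; omega
  · simp [Pi.single_eq_of_ne hj]

theorem gw_d [DecidableEq σ] (j : ℤ) {a : σ → ℕ} {S : Finset σ} {i : σ} (h : 0 < a i)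
    (hS : i ∉ S) : gw wu wz wd j (a - Pi.single i 1) (insert i S)
      = gw wu wz wd j a S - wz i + wd i := by
  have h1 : ∑ j, a j • wz j = ∑ j, (a - Pi.single i 1 : σ → ℕ) j • wz j + wz i := by
    conv_lhs => rw [← sub_single_add h]
    simp only [Pi.add_apply, add_smul, sum_add_distrib, sum_single_smul, one_smul]
  simp only [gw, h1, sum_insert hS]
  abel

end Gw

namespace Om
variable {p : ℕ} {k : Type} [Field k] {σ τ : Type} [Fintype σ] [Fintype τ]
  {W : Type} [AddCommGroup W]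

/-- span of the monomials whose weight satisfies `A` -/
noncomputable def Sw (wu : W) (wz wd : σ → W) (A : W → Prop) : Submodule k (Om p (LA k) σ) :=
  Su fun j a S => A (gw wu wz wd j a S)

section Sw
variable {wu : W} {wz wd : σ → W} {A B C : W → Prop}

theorem Sw_mono (h : ∀ x, A x → B x) :
    (Sw wu wz wd A : Submodule k (Om p (LA k) σ)) ≤ Sw wu wz wd B :=
  Su_mono fun _ _ _ _ => h _

theorem Sw_mul (h : ∀ x y, A x → B y → C (x + y)) {ω η : Om p (LA k) σ}
    (hω : ω ∈ Sw wu wz wd A) (hη : η ∈ Sw wu wz wd B) : ω * η ∈ Sw wu wz wd C := by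
  classical
  refine Su_mul ?_ hω hη
  intro j a S j' a' S' h1 h2 hd _
  rw [gw_add _ _ _ _ _ _ _ hd]
  exact h _ _ h1 h2

theorem mu_mem_Sw {j : ℤ} {a : σ → ℕ} {S : Finset σ} (h : A (gw wu wz wd j a S)) :
    (mu j a S : Om p (LA k) σ) ∈ Sw wu wz wd A := mu_mem fun _ => h

theorem one_mem_Sw (h : A 0) : (1 : Om p (LA k) σ) ∈ Sw wu wz wd A := by
  rw [← mu_one]; exact mu_mem_Sw (by simpa using h)




theorem Sw_T (n : ℤ) (h : ∀ x, A x → B (n • wu + x)) {ω : Om p (LA k) σ}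
    (hω : ω ∈ Sw wu wz wd A) : (T n : LA k) • ω ∈ Sw wu wz wd B :=
  Su_T n (fun j a S hA => by rw [gw_T]; exact h _ hA) hω

theorem Sw_d [DecidableEq σ] [Fact ((p : k) = 0)] (h : ∀ x i, A x → B (x - wz i + wd i))
    {ω : Om p (LA k) σ} (hω : ω ∈ Sw wu wz wd A) : d ω ∈ Sw wu wz wd B :=
  Su_d (fun j a S i hA h1 h2 => by rw [gw_d _ _ _ _ h1 h2]; exact h _ _ hA) hω

theorem Sw_d_self [DecidableEq σ] [Fact ((p : k) = 0)] {ω : Om p (LA k) σ}
    (hω : ω ∈ Sw wu wz wz A) : d ω ∈ Sw wu wz wz A :=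
  Sw_d (fun x i hA => by simpa using hA) hω

end Sw

/-- a multiplicative family of subspaces -/
structure MF {B : Type} [Ring B] [Algebra k B] (G : W → Submodule k B) : Prop where
  one : (1 : B) ∈ G 0
  mul : ∀ {x y : W} {a b : B}, a ∈ G x → b ∈ G y → a * b ∈ G (x + y)

/-- a family of "ideals" over a multiplicative family -/
structure MI {B : Type} [Ring B] [Algebra k B] (G H : W → Submodule k B) : Prop extends MF G where
  le : ∀ {x : W} {a : B}, a ∈ H x → a ∈ G x
  left : ∀ {x y : W} {a b : B}, a ∈ G x → b ∈ H y → a * b ∈ H (x + y)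
  right : ∀ {x y : W} {a b : B}, a ∈ H x → b ∈ G y → a * b ∈ H (x + y)


theorem MI.mul_sub {B : Type} [Ring B] [Algebra k B] {G H : W → Submodule k B} (h : MI G H)
    {x y : W} {a a' b b' : B} (ha : a ∈ G x) (ha' : a' - a ∈ H x) (hb : b ∈ G y)
    (hb' : b' - b ∈ H y) : a * b ∈ G (x + y) ∧ a' * b' - a * b ∈ H (x + y) := by
  refine ⟨h.mul ha hb, ?_⟩
  have h1 : b' ∈ G y := by simpa using add_mem (h.le hb') hb
  have : a' * b' - a * b = (a' - a) * b' + a * (b' - b) := by noncomm_ring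
  rw [this]
  exact add_mem (h.right ha' h1) (h.left ha hb')




/-- the filtration by an integral weight -/
noncomputable abbrev Fil (wu : ℤ) (wz wd : σ → ℤ) (n : ℤ) : Submodule k (Om p (LA k) σ) :=
  Sw wu wz wd (n ≤ ·)

theorem Fil_mono {wu : ℤ} {wz wd : σ → ℤ} {n m : ℤ} (h : n ≤ m) {ω : Om p (LA k) σ}
    (hω : ω ∈ Fil wu wz wd m) : ω ∈ Fil wu wz wd n := Sw_mono (fun _ hx => h.trans hx) hω

theorem Fil_mul {wu : ℤ} {wz wd : σ → ℤ} {n m : ℤ} {ω η : Om p (LA k) σ}
    (hω : ω ∈ Fil wu wz wd n) (hη : η ∈ Fil wu wz wd m) : ω * η ∈ Fil wu wz wd (n + m) :=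
  Sw_mul (fun _ _ => add_le_add) hω hη



section Pb
variable [DecidableEq σ] [DecidableEq τ] [Fact ((p : k) = 0)]




/-- pull back as a `k`-linear map -/
noncomputable def pbk (φ : O p (LA k) σ →ₐ[LA k] O p (LA k) τ) :
    Om p (LA k) σ →ₗ[k] Om p (LA k) τ := (pb φ).toLinearMap.restrictScalars k

omit [Fintype τ] [DecidableEq σ] [DecidableEq τ] in
@[simp] theorem pbk_apply (φ : O p (LA k) σ →ₐ[LA k] O p (LA k) τ) (ω : Om p (LA k) σ) :
    pbk φ ω = pb φ ω := rfl





end Pb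

/-! ### renamings -/

/-- push forward of an exponent along a map of variables -/
def push {σ τ : Type} [Fintype σ] [DecidableEq τ] (f : σ → τ) (a : σ → ℕ) : τ → ℕ :=
  fun v => ∑ i with f i = v, a i



section Rn
variable {K : Type} [CommRing K] [Fact ((p : K) = 0)] [DecidableEq σ] [DecidableEq τ]


theorem pb_e_of_z (φ : O p K σ →ₐ[K] O p K τ) (f : σ → τ) {S : Finset σ}
    (h : ∀ i ∈ S, φ (O.z i) = O.z (f i)) (hf : Set.InjOn f S) :
    ∃ ε : ℤ, ε * ε = 1 ∧ pb φ (e S) = ε • e (S.image f) := by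
  induction S using Finset.induction_on with
  | empty => exact ⟨1, rfl, by simp⟩
  | insert i S hi ih =>
    obtain ⟨ε, h1, h2⟩ := ih (fun j hj => h j (mem_insert_of_mem hj))
      (hf.mono (by simp))
    have h3 : f i ∉ S.image f := by
      intro h4
      obtain ⟨j, hj, h5⟩ := mem_image.1 h4
      exact hi (hf (by simp [hj]) (by simp) h5 ▸ hj)
    refine ⟨sg {i} S * ε * sg {f i} (S.image f), ?_, ?_⟩
    · have h4 := sg_mul_self (S := {i}) (T := S) (by simpa using hi)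
      have h5 := sg_mul_self (S := {f i}) (T := S.image f) (by simpa using h3)
      linear_combination (ε * ε * sg {f i} (S.image f) * sg {f i} (S.image f)) * h4
        + (sg {f i} (S.image f) * sg {f i} (S.image f)) * h1 + h5
    · rw [e_insert hi, map_zsmul, map_mul, pb_dz, h i (mem_insert_self _ _), d_z, h2,
        mul_smul_comm, dz_mul_e, image_insert, smul_smul, smul_smul]



/-- a top degree form is a multiple of the top monomial up to an exact form -/
theorem exists_d_top [hp : Fact p.Prime] (f : O p K σ) :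
    ∃ ζ : Om p K σ, f • e univ = O.cf (top p σ) f • mon (top p σ) univ + d ζ := by
  induction f using O.induction_zm with
  | h0 => exact ⟨0, by simp⟩
  | hadd f g hf hg =>
    obtain ⟨ζ, h1⟩ := hf
    obtain ⟨ζ', h2⟩ := hg
    exact ⟨ζ + ζ', by rw [add_smul, h1, h2, map_add, map_add, add_smul]; abel⟩
  | hm c a ha =>
    by_cases h : top p σ = a
    · subst h
      exact ⟨0, by simp [O.cf_zm, top_lt, mon, smul_assoc]⟩
    · obtain ⟨i, hi⟩ := Function.ne_iff.1 h
      have h1 : a i + 1 < p := by have := ha i; simp only [top] at hi; omega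
      obtain ⟨v, hv⟩ := (natCast_unit (Fact.out : (p : K) = 0) (Nat.succ_ne_zero (a i))
        h1).exists_right_inv
      refine ⟨(c * v * (sg {i} (univ.erase i) : K)) • mon (a + Pi.single i 1) (univ.erase i), ?_⟩
      rw [map_smul, O.cf_zm, if_neg fun h' => h h'.1, smul_zero, zero_smul, zero_add, map_smul,
        d_mon, Finset.sum_eq_single i]
      · have h2 := sg_mul_self (S := {i}) (T := univ.erase i) (by simp)
        have h3 : (sg {i} (univ.erase i) : K) * (sg {i} (univ.erase i) : K) = 1 := by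
          rw [← Int.cast_mul, h2, Int.cast_one]
        rw [add_tsub_cancel_right, insert_erase (mem_univ i), ← Int.cast_smul_eq_zsmul K,
          smul_smul, smul_assoc, mon]
        congr 1
        simp only [Pi.add_apply, Pi.single_eq_same, Int.cast_mul, Int.cast_natCast]
        simp only [Nat.succ_eq_add_one] at hv
        linear_combination (-c * v * ((a i + 1 : ℕ) : K)) * h3 - c * hv
      · intro j _ hj
        rw [sg_of_not (by simpa using hj)]; simp
      · simp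

end Rn

/-! ### the exponential -/

section E
variable [Fact p.Prime] [Fact ((p : k) = 0)]

theorem E_ind {P : ℤ → (σ → ℕ) → Finset σ → Prop} {C : O p (LA k) σ → O p (LA k) σ → Prop}
    (h0 : C 0 1)
    (hs : ∀ (X Y : O p (LA k) σ) (c : k) j a, P j a ∅ → C X Y →
      C (X + c • (T j : LA k) • O.zm a) (Y * tx p (c • (T j : LA k) • O.zm a)))
    {X : O p (LA k) σ} (hX : X ∈ (O.mx : Ideal (O p (LA k) σ)) ^ 2) (hP : fn X ∈ Su P) :
    C X (O.E X) := by
  classical
  let b := (AddMonoidAlgebra.basis ℤ k).smulTower (O.bas : Basis (σ → Fin p) (LA k) _)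
  have hb : ∀ x, b x = (T x.1 : LA k) • O.zm fun i => (x.2 i : ℕ) := fun x => by
    rw [Basis.smulTower_apply, O.bas_apply]; rfl
  have hr : ∀ x, b.repr X x = cT x.1 (O.cf (fun i => (x.2 i : ℕ)) X) := fun x => by
    rw [Basis.smulTower_repr]
    have : (O.bas.coord x.2 : O p (LA k) σ →ₗ[LA k] LA k) = O.cf fun i => (x.2 i : ℕ) := by
      refine O.bas.ext fun y => ?_
      rw [Basis.coord_apply, Basis.repr_self, O.bas_apply, O.cf_zm, Finsupp.single_apply]
      refine if_congr ⟨?_, ?_⟩ rfl rfl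
      · rintro rfl; exact ⟨rfl, fun i => (x.2 i).2⟩
      · rintro ⟨h1, -⟩
        exact funext fun i => Fin.ext (congrFun h1 i).symm
    exact congrArg (fun L : O p (LA k) σ →ₗ[LA k] LA k => cT x.1 (L X)) this
  have key : ∀ s : Finset (ℤ × (σ → Fin p)), s ⊆ (b.repr X).support →
      (∑ x ∈ s, b.repr X x • b x) ∈ (O.mx : Ideal (O p (LA k) σ)) ^ 2 ∧
        C (∑ x ∈ s, b.repr X x • b x) (O.E (∑ x ∈ s, b.repr X x • b x)) := by
    intro s
    induction s using Finset.induction_on with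
    | empty => intro _; simpa using h0
    | insert x s hx ih =>
      intro hsub
      obtain ⟨h1, h2⟩ := ih fun y hy => hsub (mem_insert_of_mem hy)
      have h3 : cT x.1 (O.cf (fun i => (x.2 i : ℕ)) X) ≠ 0 := by
        rw [← hr]; exact Finsupp.mem_support_iff.1 (hsub (mem_insert_self _ _))
      have h4 : 2 ≤ ∑ i, (x.2 i : ℕ) := by
        by_contra h5
        exact h3 (by rw [O.cf_eq_zero_of_mem_pow hX (not_le.1 h5), map_zero])
      have h5 : b.repr X x • b x ∈ (O.mx : Ideal (O p (LA k) σ)) ^ 2 := by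
        rw [hb, Algebra.smul_def, Algebra.smul_def]
        exact Ideal.mul_mem_left _ _ (Ideal.mul_mem_left _ _
          (Ideal.pow_le_pow_right h4 (O.zm_mem_pow _)))
      rw [sum_insert hx, add_comm]
      refine ⟨add_mem h1 h5, ?_⟩
      rw [O.E_add h1 h5, hb, ← smul_assoc, O.E_monomial _ h4, smul_assoc]
      exact hs _ _ _ _ _ (fn_mem_Su.1 hP _ _ h3) h2
  have := (key _ subset_rfl).2
  have h1 : ∑ x ∈ (b.repr X).support, b.repr X x • b x = X := b.linearCombination_repr X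
  rwa [h1] at this

/-- expansion of the exponential along three nested subspaces -/
theorem E_sub_mem {P : ℤ → (σ → ℕ) → Finset σ → Prop} {G0 G1 G2 : Submodule k (Om p (LA k) σ)}
    (h1 : 1 ∈ G0) (h10 : G1 ≤ G0) (h21 : G2 ≤ G1) (h01 : ∀ a ∈ G0, ∀ b ∈ G1, a * b ∈ G1)
    (h11 : ∀ a ∈ G1, ∀ b ∈ G1, a * b ∈ G2) (hP : ∀ j a, P j a ∅ → mu j a ∅ ∈ G1)
    {X : O p (LA k) σ} (hX : X ∈ (O.mx : Ideal (O p (LA k) σ)) ^ 2) (h : fn X ∈ Su P) :
    fn (O.E X) ∈ G0 ∧ fn (O.E X - 1) ∈ G1 ∧ fn (O.E X - 1 - X) ∈ G2 := by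
  have h0 : ∀ Y : O p (LA k) σ, fn (Y - 1) ∈ G1 → fn Y ∈ G0 := fun Y hY => by
    simpa using add_mem (h10 hY) h1
  suffices h' : fn (O.E X - 1) ∈ G1 ∧ fn (O.E X - 1 - X) ∈ G2 from ⟨h0 _ h'.1, h'⟩
  refine E_ind (C := fun X Y => fn (Y - 1) ∈ G1 ∧ fn (Y - 1 - X) ∈ G2) (by simp) ?_ hX h
  intro X Y c j a hj ⟨hY1, hY2⟩
  set x : O p (LA k) σ := c • (T j : LA k) • O.zm a with hx
  have hx1 : fn x ∈ G1 := by
    have : fn x = c • mu j a ∅ := by
      rw [hx, ← algebraMap_smul (LA k) c, fn_smul, fn_T_smul, algebraMap_smul]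
    rw [this]; exact G1.smul_mem _ (hP _ _ hj)
  have hpow : ∀ n : ℕ, fn (x ^ n) ∈ G0 ∧ fn (x ^ (n + 1)) ∈ G1 := by
    intro n
    induction n with
    | zero => simpa using ⟨h1, hx1⟩
    | succ n ih =>
      refine ⟨h10 ih.2, ?_⟩
      rw [pow_succ, fn, map_mul]
      exact h01 _ (h10 ih.2) _ hx1
  have ht2 : fn (tx p x - 1 - x) ∈ G2 := by
    rw [tx_eq O.p_zero]
    have : ∀ r : O p (LA k) σ, 1 + x + x ^ 2 * r - 1 - x = x ^ 2 * r := fun r => by ring
    rw [this, mul_sum, fn, map_sum]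
    refine sum_mem fun n _ => ?_
    have : x ^ 2 * ((ic p (n + 2) : O p (LA k) σ) * x ^ n) = ic p (n + 2) • (x ^ (n + 1) * x) := by
      rw [nsmul_eq_mul]; ring
    rw [this, map_nsmul, map_mul]
    exact nsmul_mem (h11 _ (hpow n).2 _ hx1) _
  have ht1 : fn (tx p x - 1) ∈ G1 := by simpa using add_mem (h21 ht2) hx1
  constructor
  · have : Y * tx p x - 1 = Y * (tx p x - 1) + (Y - 1) := by ring
    rw [this, fn, map_add, map_mul]
    exact add_mem (h01 _ (h0 _ hY1) _ ht1) hY1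
  · have : Y * tx p x - 1 - (X + x)
        = (Y - 1) * (tx p x - 1) + (Y - 1 - X) + (tx p x - 1 - x) := by ring
    rw [this, fn, map_add, map_add, map_mul]
    exact add_mem (add_mem (h11 _ hY1 _ ht1) hY2) ht2

theorem E_mem {P : ℤ → (σ → ℕ) → Finset σ → Prop} {G : Submodule k (Om p (LA k) σ)}
    (h1 : 1 ∈ G) (hm : ∀ a ∈ G, ∀ b ∈ G, a * b ∈ G) (hP : ∀ j a, P j a ∅ → mu j a ∅ ∈ G)
    {X : O p (LA k) σ} (hX : X ∈ (O.mx : Ideal (O p (LA k) σ)) ^ 2) (h : fn X ∈ Su P) :
    fn (O.E X) ∈ G := (E_sub_mem h1 le_rfl le_rfl hm hm hP hX h).1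

theorem E_Fil {wu : ℤ} {wz wd : σ → ℤ} {n : ℤ} (hn : 0 ≤ n) {X : O p (LA k) σ}
    (hX : X ∈ (O.mx : Ideal (O p (LA k) σ)) ^ 2) (h : fn X ∈ Fil wu wz wd n) :
    fn (O.E X) ∈ Fil wu wz wd 0 ∧ fn (O.E X - 1) ∈ Fil wu wz wd n ∧
      fn (O.E X - 1 - X) ∈ Fil wu wz wd (2 * n) :=
  E_sub_mem (one_mem_Sw le_rfl) (fun _ => Fil_mono hn) (fun _ => Fil_mono (by omega))
    (fun _ ha _ hb => Fil_mono (by omega) (Fil_mul ha hb))
    (fun _ ha _ hb => Fil_mono (by omega) (Fil_mul ha hb)) (fun _ _ hj => mu_mem_Sw hj) hX h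


end E

end Om

end N255.Dr
namespace N255.Dr.Om.MF
end N255.Dr.Om.MF
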