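import Mathlib

-- ▼ part N255/Dr/Tx
section

/-! Truncated exponentials in characteristic `p` and the divided-power exponential on `m ^ 2`
as an inductive relation (abstract commutative algebra). -/

set_option autoImplicit false

namespace N255.Dr

open Finset

variable {A : Type*} [CommRing A]

/-- a natural number inverse to `n !` modulo `p` -/
noncomputable def ic (p n : ℕ) : ℕ := ((n.factorial : ZMod p)⁻¹).val

/-- truncated exponential `∑_{n<p} x^n / n!` -/
noncomputable def tx (p : ℕ) (x : A) : A := ∑ n ∈ range p, (ic p n : A) * x ^ n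

theorem cast_eq_of_zmod {p : ℕ} (hp : (p : A) = 0) {a b : ℕ} (h : (a : ZMod p) = b) :
    (a : A) = b := by
  rw [ZMod.natCast_eq_natCast_iff] at h
  obtain ⟨k, hk⟩ := h.dvd
  have h2 : ((b : ℤ) : A) - ((a : ℤ) : A) = ((p : ℤ) : A) * (k : A) := by
    rw [← Int.cast_sub, hk, Int.cast_mul]
  simp only [Int.cast_natCast, hp, zero_mul] at h2
  exact (sub_eq_zero.1 h2).symm

theorem natCast_unit {p : ℕ} [hpp : Fact p.Prime] (hp : (p : A) = 0) {n : ℕ} (h0 : n ≠ 0)
    (hn : n < p) : IsUnit (n : A) := by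
  have hne : (n : ZMod p) ≠ 0 := by
    rw [Ne, ZMod.natCast_eq_zero_iff]
    exact Nat.not_dvd_of_pos_of_lt (Nat.pos_of_ne_zero h0) hn
  refine IsUnit.of_mul_eq_one (((n : ZMod p)⁻¹).val : A) ?_
  rw [← Nat.cast_mul, ← Nat.cast_one]
  apply cast_eq_of_zmod hp
  rw [Nat.cast_mul, ZMod.natCast_zmod_val, mul_inv_cancel₀ hne, Nat.cast_one]

theorem ic_mul_fact {p : ℕ} [hpp : Fact p.Prime] (hp : (p : A) = 0) {n : ℕ} (hn : n < p) :
    (ic p n : A) * (n.factorial : A) = 1 := by
  have hne : (n.factorial : ZMod p) ≠ 0 := by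
    rw [Ne, ZMod.natCast_eq_zero_iff, hpp.out.dvd_factorial]
    omega
  rw [← Nat.cast_mul, ← Nat.cast_one]
  apply cast_eq_of_zmod hp
  rw [Nat.cast_mul, ic, ZMod.natCast_zmod_val, inv_mul_cancel₀ hne, Nat.cast_one]

theorem ic_zero {p : ℕ} [hpp : Fact p.Prime] (hp : (p : A) = 0) : (ic p 0 : A) = 1 := by
  simpa using ic_mul_fact hp hpp.out.pos

theorem ic_one {p : ℕ} [hpp : Fact p.Prime] (hp : (p : A) = 0) : (ic p 1 : A) = 1 := by
  simpa using ic_mul_fact hp hpp.out.one_lt

theorem ic_succ {p : ℕ} [hpp : Fact p.Prime] (hp : (p : A) = 0) {n : ℕ} (hn : n + 1 < p) :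
    (ic p (n + 1) : A) * ((n + 1 : ℕ) : A) = ic p n := by
  have h1 := ic_mul_fact hp hn
  have h2 := ic_mul_fact hp (n := n) (by omega)
  rw [Nat.factorial_succ, Nat.cast_mul] at h1
  calc (ic p (n + 1) : A) * ((n + 1 : ℕ) : A)
      = (ic p (n + 1) : A) * ((n + 1 : ℕ) : A) * ((ic p n : A) * (n.factorial : A)) := by
        rw [h2, mul_one]
    _ = ((ic p (n + 1) : A) * (((n + 1 : ℕ) : A) * (n.factorial : A))) * (ic p n : A) := by ring
    _ = ic p n := by rw [h1, one_mul]

theorem map_tx {B F : Type*} [CommRing B] [FunLike F A B] [RingHomClass F A B] (φ : F) (p : ℕ)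
    (x : A) : φ (tx p x) = tx p (φ x) := by
  simp [tx, map_sum]

theorem tx_mem {S : Type*} [SetLike S A] [SubsemiringClass S A] (s : S) (p : ℕ) {x : A}
    (hx : x ∈ s) : tx p x ∈ s :=
  sum_mem fun _ _ => mul_mem (natCast_mem s _) (pow_mem hx _)

/-- `tx x = 1 + x + x^2 * r` with `r` in any subsemiring containing `x` -/
theorem tx_eq {p : ℕ} [hpp : Fact p.Prime] (hp : (p : A) = 0) (x : A) :
    tx p x = 1 + x + x ^ 2 * ∑ n ∈ range (p - 2), (ic p (n + 2) : A) * x ^ n := by
  obtain ⟨q, hq⟩ : ∃ q, p = q + 2 := ⟨p - 2, by have := hpp.out.two_le; omega⟩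
  have h0 := ic_zero hp
  have h1 := ic_one hp
  unfold tx
  have : p - 2 = q := by omega
  rw [this]
  conv_lhs => rw [show range p = range (q + 2) by rw [hq]]
  rw [sum_range_succ', sum_range_succ', h0, zero_add, h1, mul_sum]
  have : ∀ k ∈ range q, (ic p (k + 1 + 1) : A) * x ^ (k + 1 + 1)
      = x ^ 2 * ((ic p (k + 2) : A) * x ^ k) := fun k _ => by ring
  rw [sum_congr rfl this]
  ring


theorem tx_sub_mem {p : ℕ} [hpp : Fact p.Prime] (hp : (p : A) = 0) {J : Ideal A} {x : A}
    (hx : x ∈ J) : tx p x - 1 - x ∈ J ^ 2 := by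
  rw [tx_eq hp]
  have : ∀ r : A, 1 + x + x ^ 2 * r - 1 - x = x ^ 2 * r := fun r => by ring
  rw [this]
  exact Ideal.mul_mem_right _ _ (Ideal.pow_mem_pow hx 2)

theorem tx_sub_one_mem {p : ℕ} [hpp : Fact p.Prime] (hp : (p : A) = 0) {J : Ideal A} {x : A}
    (hx : x ∈ J) : tx p x - 1 ∈ J := by
  have h := Ideal.pow_le_self (I := J) (n := 2) (by norm_num) (tx_sub_mem hp hx)
  have := J.add_mem h hx
  simpa using this

section Der
variable {R M : Type*} [CommSemiring R] [Algebra R A] [AddCommGroup M] [Module A M] [Module R M]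

theorem der_tx {p : ℕ} [hpp : Fact p.Prime] (hp : (p : A) = 0) (D : Derivation R A M) {x : A}
    (hx : x ^ (p - 1) • D x = 0) : D (tx p x) = tx p x • D x := by
  obtain ⟨q, hq⟩ : ∃ q, p = q + 1 := ⟨p - 1, by have := hpp.out.pos; omega⟩
  have hq' : p - 1 = q := by omega
  rw [hq'] at hx
  have hr : range p = range (q + 1) := by rw [hq]
  have hl : D (tx p x) = ∑ n ∈ range q, ((ic p n : A) * x ^ n) • D x := by
    unfold tx
    rw [hr, sum_range_succ', map_add, map_sum]
    have h0 : D ((ic p 0 : A) * x ^ 0) = 0 := by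
      rw [pow_zero, mul_one, Derivation.map_natCast]
    rw [h0, add_zero]
    refine sum_congr rfl fun n hn => ?_
    have hn' : n + 1 < p := by have := mem_range.1 hn; omega
    rw [Derivation.leibniz, Derivation.map_natCast, smul_zero, add_zero, Derivation.leibniz_pow,
      ← ic_succ hp hn', Nat.add_sub_cancel, ← Nat.cast_smul_eq_nsmul A, smul_smul, smul_smul]
  rw [hl]
  unfold tx
  rw [hr, sum_range_succ, add_smul, mul_smul (ic p q : A), hx, smul_zero, add_zero, sum_smul]

theorem pow_smul_der {p : ℕ} (hp : 0 < p) (D : Derivation R A M) {a b : A} (ha : a ^ p = 0)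
    (hb : b ^ p = 0) : (a * b) ^ (p - 1) • D (a * b) = 0 := by
  obtain ⟨q, rfl⟩ : ∃ q, p = q + 1 := ⟨p - 1, by omega⟩
  rw [Nat.add_sub_cancel, Derivation.leibniz, smul_add, smul_smul, smul_smul]
  have h1 : (a * b) ^ q * a = a ^ (q + 1) * b ^ q := by ring
  have h2 : (a * b) ^ q * b = a ^ q * b ^ (q + 1) := by ring
  rw [h1, h2, ha, hb]; simp

end Der

/-- `IsX p m W E`: `E` is a divided-power exponential of `W ∈ m ^ 2`. -/
inductive IsX (p : ℕ) (m : Ideal A) : A → A → Prop
  | one : IsX p m 0 1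
  | step {W E a b : A} : a ∈ m → b ∈ m → IsX p m W E → IsX p m (W + a * b) (E * tx p (a * b))

namespace IsX
variable {p : ℕ} {m : Ideal A}

theorem mul {W E W' E' : A} (h : IsX p m W E) (h' : IsX p m W' E') :
    IsX p m (W + W') (E * E') := by
  induction h' with
  | one => simpa using h
  | step ha hb _ ih =>
    have := step ha hb ih
    rwa [add_assoc, mul_assoc] at this

theorem single {a b : A} (ha : a ∈ m) (hb : b ∈ m) : IsX p m (a * b) (tx p (a * b)) := by
  simpa using step (p := p) ha hb one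

theorem ex {W : A} (hW : W ∈ m ^ 2) : ∃ E, IsX p m W E := by
  rw [pow_two] at hW
  refine Submodule.mul_induction_on hW (fun a ha b hb => ⟨_, single ha hb⟩) ?_
  rintro x y ⟨E, hE⟩ ⟨E', hE'⟩
  exact ⟨_, hE.mul hE'⟩

theorem prod {ι : Type*} (s : Finset ι) (W E : ι → A) (h : ∀ i ∈ s, IsX p m (W i) (E i)) :
    IsX p m (∑ i ∈ s, W i) (∏ i ∈ s, E i) := by
  classical
  induction s using Finset.induction_on with
  | empty => simpa using one
  | insert i s hi ih =>
    rw [sum_insert hi, prod_insert hi]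
    exact (h i (mem_insert_self _ _)).mul (ih fun j hj => h j (mem_insert_of_mem hj))

theorem mem {W E : A} (h : IsX p m W E) : W ∈ m ^ 2 := by
  induction h with
  | one => exact zero_mem _
  | step ha hb _ ih => exact add_mem ih (by rw [pow_two]; exact Ideal.mul_mem_mul ha hb)

theorem map {B F : Type*} [CommRing B] [FunLike F A B] [RingHomClass F A B] (φ : F)
    {m' : Ideal B} (hφ : ∀ a ∈ m, φ a ∈ m') {W E : A} (h : IsX p m W E) :
    IsX p m' (φ W) (φ E) := by
  induction h with
  | one => simpa using one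
  | step ha hb _ ih =>
    have := step (hφ _ ha) (hφ _ hb) ih
    simpa [map_tx] using this

theorem der {R M : Type*} [CommSemiring R] [Algebra R A] [AddCommGroup M] [Module A M]
    [Module R M] [hpp : Fact p.Prime] (hp : (p : A) = 0) (hm : ∀ a ∈ m, a ^ p = 0)
    (D : Derivation R A M) {W E : A} (h : IsX p m W E) : D E = E • D W := by
  induction h with
  | one => simp
  | @step W E a b ha hb _ ih =>
    rw [Derivation.leibniz, ih, der_tx hp D (pow_smul_der hpp.out.pos D (hm _ ha) (hm _ hb)),
      map_add, smul_add, smul_smul, smul_smul, add_comm, mul_comm (tx p (a * b)) E]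

theorem sub_one_mem [hpp : Fact p.Prime] (hp : (p : A) = 0) {W E : A} (h : IsX p m W E) :
    E - 1 ∈ m ^ 2 := by
  induction h with
  | one => simp
  | @step W E a b ha hb _ ih =>
    have h1 : tx p (a * b) - 1 ∈ m ^ 2 :=
      tx_sub_one_mem hp (by rw [pow_two]; exact Ideal.mul_mem_mul ha hb)
    have : E * tx p (a * b) - 1 = E * (tx p (a * b) - 1) + (E - 1) := by ring
    rw [this]
    exact add_mem (Ideal.mul_mem_left _ _ h1) ih

theorem sub_mem [hpp : Fact p.Prime] (hp : (p : A) = 0) {W E : A} (h : IsX p m W E) :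
    E - 1 - W ∈ m ^ 4 := by
  induction h with
  | one => simp
  | @step W E a b ha hb h ih =>
    have hab : a * b ∈ m ^ 2 := by rw [pow_two]; exact Ideal.mul_mem_mul ha hb
    have h1 : tx p (a * b) - 1 ∈ m ^ 2 := tx_sub_one_mem hp hab
    have h2 : tx p (a * b) - 1 - a * b ∈ m ^ 4 := by
      have := tx_sub_mem hp hab
      rwa [← pow_mul] at this
    have h3 : (E - 1) * (tx p (a * b) - 1) ∈ m ^ 4 := by
      have := Ideal.mul_mem_mul (h.sub_one_mem hp) h1
      rwa [← pow_add] at this
    have : E * tx p (a * b) - 1 - (W + a * b)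
        = (E - 1) * (tx p (a * b) - 1) + (E - 1 - W) + (tx p (a * b) - 1 - a * b) := by ring
    rw [this]
    exact add_mem (add_mem h3 ih) h2

theorem isUnit_tx [hpp : Fact p.Prime] (hp : (p : A) = 0) {x : A} (hx : IsNilpotent x) :
    IsUnit (tx p x) := by
  have h : tx p x - 1 ∈ Ideal.span {x} := tx_sub_one_mem hp (Ideal.mem_span_singleton_self x)
  obtain ⟨r, hr⟩ := Ideal.mem_span_singleton'.1 h
  have hn : IsNilpotent (r * x) := (Commute.all r x).isNilpotent_mul_left hx
  have : tx p x = 1 + r * x := by rw [hr]; ring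
  rw [this]
  exact hn.isUnit_one_add

theorem isUnit [hpp : Fact p.Prime] (hp : (p : A) = 0) (hm : ∀ a ∈ m, a ^ p = 0) {W E : A}
    (h : IsX p m W E) : IsUnit E := by
  induction h with
  | one => exact isUnit_one
  | @step W E a b ha hb _ ih =>
    refine ih.mul (isUnit_tx hp ⟨p, ?_⟩)
    rw [mul_pow, hm _ ha, zero_mul]

end IsX

/-- in characteristic `p`, an ideal generated by elements with `z ^ p = 0` is killed by
Frobenius. -/
theorem pow_eq_zero_of_mem_span {p : ℕ} [hpp : Fact p.Prime] (hp : (p : A) = 0) {s : Set A}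
    (hs : ∀ z ∈ s, z ^ p = 0) {a : A} (ha : a ∈ Ideal.span s) : a ^ p = 0 := by
  induction ha using Submodule.span_induction with
  | mem x hx => exact hs x hx
  | zero => exact zero_pow hpp.out.ne_zero
  | add x y _ _ hx hy =>
    obtain ⟨r, hr⟩ := (Commute.all x y).exists_add_pow_prime_eq hpp.out
    rw [hr, hx, hy, hp]; simp
  | smul r x _ hx => rw [smul_eq_mul, mul_pow, hx, mul_zero]

end N255.Dr
end

-- ▼ part N255/Dr/O

/-! The truncated polynomial algebra `O p K σ = K[z_i] / (z_i ^ p)`: generators, universal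
property, monomial basis, augmentation, partial derivatives. -/

set_option autoImplicit false

namespace N255.Dr

open Finset MvPolynomial Module

/-- the truncation ideal -/
noncomputable abbrev tI (p : ℕ) (K : Type) [CommRing K] (σ : Type) : Ideal (MvPolynomial σ K) :=
  Ideal.span (Set.range fun i : σ => (X i : MvPolynomial σ K) ^ p)

/-- truncated polynomial algebra -/
def O (p : ℕ) (K : Type) [CommRing K] (σ : Type) : Type := MvPolynomial σ K ⧸ tI p K σ

namespace O
variable {p : ℕ} {K : Type} [CommRing K] {σ : Type}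

noncomputable instance : CommRing (O p K σ) :=
  inferInstanceAs (CommRing (MvPolynomial σ K ⧸ tI p K σ))

noncomputable instance alg {k : Type} [CommSemiring k] [Algebra k K] : Algebra k (O p K σ) :=
  inferInstanceAs (Algebra k (MvPolynomial σ K ⧸ tI p K σ))

instance tower {k : Type} [CommSemiring k] [Algebra k K] : IsScalarTower k K (O p K σ) :=
  inferInstanceAs (IsScalarTower k K (MvPolynomial σ K ⧸ tI p K σ))

/-- the quotient map -/
noncomputable def mk : MvPolynomial σ K →ₐ[K] O p K σ := Ideal.Quotient.mkₐ K (tI p K σ)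

theorem mk_surj : Function.Surjective (mk : MvPolynomial σ K → O p K σ) :=
  Ideal.Quotient.mkₐ_surjective K _

theorem mk_eq_zero {f : MvPolynomial σ K} : (mk f : O p K σ) = 0 ↔ f ∈ tI p K σ :=
  Ideal.Quotient.eq_zero_iff_mem

/-- the variables -/
noncomputable def z (i : σ) : O p K σ := mk (X i)

@[simp] theorem mk_X (i : σ) : (mk (X i) : O p K σ) = z i := rfl

theorem z_pow (i : σ) : (z i : O p K σ) ^ p = 0 := by
  rw [z, ← map_pow, mk_eq_zero]
  exact Ideal.subset_span ⟨i, rfl⟩

theorem p_zero [h : Fact ((p : K) = 0)] : (p : O p K σ) = 0 := by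
  rw [← map_natCast (algebraMap K (O p K σ)), h.out, map_zero]

instance factO [Fact ((p : K) = 0)] : Fact ((p : O p K σ) = 0) := ⟨p_zero⟩

section Lift
variable {B : Type*} [CommRing B] [Algebra K B]

/-- universal property -/
noncomputable def lift (b : σ → B) (hb : ∀ i, b i ^ p = 0) : O p K σ →ₐ[K] B :=
  Ideal.Quotient.liftₐ (tI p K σ) (aeval b) (by
    intro a ha
    have : tI p K σ ≤ RingHom.ker (aeval b : MvPolynomial σ K →ₐ[K] B) := by
      rw [Ideal.span_le]
      rintro _ ⟨i, rfl⟩
      simp [hb i]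
    exact this ha)

theorem lift_mk (b : σ → B) (hb : ∀ i, b i ^ p = 0) (f : MvPolynomial σ K) :
    lift b hb (mk f : O p K σ) = aeval b f := rfl

@[simp] theorem lift_z (b : σ → B) (hb : ∀ i, b i ^ p = 0) (i : σ) :
    lift b hb (z i : O p K σ) = b i := by
  rw [z, lift_mk, aeval_X]

end Lift

theorem induction {P : O p K σ → Prop} (hc : ∀ c : K, P (algebraMap K _ c))
    (hadd : ∀ f g, P f → P g → P (f + g)) (hz : ∀ f i, P f → P (f * z i)) (f : O p K σ) :
    P f := by
  obtain ⟨g, rfl⟩ := mk_surj f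
  induction g using MvPolynomial.induction_on with
  | C a => rw [← algebraMap_eq, AlgHom.commutes]; exact hc a
  | add f g hf hg => rw [map_add]; exact hadd _ _ hf hg
  | mul_X f i hf => rw [map_mul]; exact hz _ _ hf

theorem hom_ext {B : Type*} [Semiring B] [Algebra K B] {f g : O p K σ →ₐ[K] B}
    (h : ∀ i, f (z i) = g (z i)) : f = g := by
  ext x
  induction x using induction with
  | hc c => simp
  | hadd a b ha hb => simp [ha, hb]
  | hz a i ha => simp [ha, h]


/-- base change of coefficients -/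
noncomputable def bc (K' : Type) [CommRing K'] [Algebra K K'] : O p K σ →ₐ[K] O p K' σ :=
  lift z z_pow

@[simp] theorem bc_z (K' : Type) [CommRing K'] [Algebra K K'] (i : σ) :
    bc K' (z i : O p K σ) = z i := lift_z _ _ _

/-- renaming of the variables -/
noncomputable def rn {τ : Type} (f : σ → τ) : O p K σ →ₐ[K] O p K τ :=
  lift (fun i => z (f i)) fun _ => z_pow _

@[simp] theorem rn_z {τ : Type} (f : σ → τ) (i : σ) : rn f (z i : O p K σ) = z (f i) :=
  lift_z _ _ _

/-- the maximal ("augmentation") ideal -/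
noncomputable def mx : Ideal (O p K σ) := Ideal.span (Set.range z)

theorem z_mem (i : σ) : (z i : O p K σ) ∈ mx := Ideal.subset_span ⟨i, rfl⟩

theorem map_mx {B F : Type*} [CommRing B] [FunLike F (O p K σ) B] [RingHomClass F (O p K σ) B]
    (φ : F) {J : Ideal B} (h : ∀ i, φ (z i) ∈ J) {f : O p K σ} (hf : f ∈ mx) : φ f ∈ J := by
  have : (mx : Ideal (O p K σ)) ≤ J.comap φ := by
    rw [mx, Ideal.span_le]
    rintro _ ⟨i, rfl⟩
    exact h i
  exact this hf

theorem map_mx_pow {B F : Type*} [CommRing B] [FunLike F (O p K σ) B]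
    [RingHomClass F (O p K σ) B] (φ : F) {J : Ideal B} (h : ∀ i, φ (z i) ∈ J) {n : ℕ}
    {f : O p K σ} (hf : f ∈ mx ^ n) : φ f ∈ J ^ n := by
  have h1 : (mx : Ideal (O p K σ)).map φ ≤ J := Ideal.map_le_iff_le_comap.2 fun _ hf => map_mx φ h hf
  have h2 := Ideal.mem_map_of_mem φ hf
  rw [Ideal.map_pow] at h2
  exact Ideal.pow_right_mono h1 n h2

theorem pow_p [Fact p.Prime] [Fact ((p : K) = 0)] {f : O p K σ} (hf : f ∈ mx) : f ^ p = 0 :=
  pow_eq_zero_of_mem_span p_zero (by rintro _ ⟨i, rfl⟩; exact z_pow i) hf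

/-- substitution `z i ↦ b i` with `b i` in the maximal ideal -/
noncomputable def sub [Fact p.Prime] [Fact ((p : K) = 0)] {τ : Type} (b : σ → O p K τ)
    (hb : ∀ i, b i ∈ mx) : O p K σ →ₐ[K] O p K τ := lift b fun i => pow_p (hb i)

@[simp] theorem sub_z [Fact p.Prime] [Fact ((p : K) = 0)] {τ : Type} (b : σ → O p K τ)
    (hb : ∀ i, b i ∈ mx) (i : σ) : sub b hb (z i) = b i := lift_z _ _ _

/-- augmentation -/
noncomputable def aug [hp : Fact p.Prime] : O p K σ →ₐ[K] K :=
  lift (fun _ => 0) fun _ => zero_pow hp.out.ne_zero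

@[simp] theorem aug_z [Fact p.Prime] (i : σ) : aug (z i : O p K σ) = 0 := lift_z _ _ _

theorem sub_aug_mem [Fact p.Prime] (f : O p K σ) : f - algebraMap K _ (aug f) ∈ mx := by
  induction f using induction with
  | hc c => simp
  | hadd a b ha hb =>
    have := add_mem ha hb
    rw [map_add, map_add]
    convert this using 1
    ring
  | hz a i _ => simpa using Ideal.mul_mem_left _ _ (z_mem i)

theorem mem_mx [Fact p.Prime] {f : O p K σ} : f ∈ mx ↔ aug f = 0 := by
  constructor
  · intro h
    simpa using map_mx (J := ⊥) (aug : O p K σ →ₐ[K] K) (by simp) h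
  · intro h
    simpa [h] using sub_aug_mem f

/-! ### monomials and coefficients -/

/-- descent of a linear map -/
noncomputable def desc {M : Type*} [AddCommGroup M] [Module K M] (L : MvPolynomial σ K →ₗ[K] M)
    (h : ∀ f ∈ tI p K σ, L f = 0) : O p K σ →ₗ[K] M :=
  ((tI p K σ).restrictScalars K).liftQ L h


theorem lcoeff_tI [Fintype σ] {a : σ → ℕ} (h : ∀ i, a i < p) :
    ∀ f ∈ tI p K σ, lcoeff K (Finsupp.equivFunOnFinite.symm a) f = 0 := by
  classical
  intro f hf
  obtain ⟨c, rfl⟩ := (Ideal.mem_span_range_iff_exists_fun).1 hf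
  rw [map_sum]
  refine sum_eq_zero fun i _ => ?_
  rw [lcoeff_apply, X_pow_eq_monomial, coeff_mul_monomial', if_neg]
  intro hle
  have := hle i
  simp only [Finsupp.single_eq_same, Finsupp.equivFunOnFinite_symm_apply_apply] at this
  exact absurd (h i) (by omega)

/-- coefficient functional (zero when some exponent is `≥ p`) -/
noncomputable def cf [Fintype σ] (a : σ → ℕ) : O p K σ →ₗ[K] K :=
  if h : ∀ i, a i < p then desc (lcoeff K (Finsupp.equivFunOnFinite.symm a)) (lcoeff_tI h) else 0

theorem cf_mk [Fintype σ] {a : σ → ℕ} (h : ∀ i, a i < p) (f : MvPolynomial σ K) :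
    cf a (mk f : O p K σ) = coeff (Finsupp.equivFunOnFinite.symm a) f := by
  rw [cf, dif_pos h]; rfl

theorem cf_of_not [Fintype σ] {a : σ → ℕ} (h : ¬ ∀ i, a i < p) (f : O p K σ) : cf a f = 0 := by
  rw [cf, dif_neg h]; rfl

/-- monomial -/
noncomputable def zm [Fintype σ] (a : σ → ℕ) : O p K σ := ∏ i, z i ^ a i

section Mon
variable [Fintype σ]

theorem zm_add (a b : σ → ℕ) : (zm (a + b) : O p K σ) = zm a * zm b := by
  simp [zm, pow_add, prod_mul_distrib]

@[simp] theorem zm_zero : (zm (0 : σ → ℕ) : O p K σ) = 1 := by simp [zm]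

theorem zm_single [DecidableEq σ] (i : σ) (n : ℕ) : (zm (Pi.single i n) : O p K σ) = z i ^ n := by
  rw [zm, Finset.prod_eq_single i]
  · simp
  · intro j _ hj; simp [Pi.single_eq_of_ne hj]
  · simp

theorem zm_eq_zero {a : σ → ℕ} (h : ¬ ∀ i, a i < p) : (zm a : O p K σ) = 0 := by
  push Not at h
  obtain ⟨i, hi⟩ := h
  refine prod_eq_zero (mem_univ i) ?_
  obtain ⟨k, hk⟩ := Nat.exists_eq_add_of_le hi
  rw [hk, pow_add, z_pow, zero_mul]

theorem mk_monomial (a : σ →₀ ℕ) (c : K) : (mk (monomial a c) : O p K σ) = c • zm a := by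
  rw [monomial_eq, map_mul, ← algebraMap_eq, AlgHom.commutes, Algebra.smul_def,
    Finsupp.prod_fintype _ _ (by simp), map_prod]
  simp [zm]

theorem cf_zm [DecidableEq σ] (a b : σ → ℕ) :
    cf a (zm b : O p K σ) = if a = b ∧ ∀ i, a i < p then 1 else 0 := by
  by_cases h : ∀ i, a i < p
  · have : (zm b : O p K σ) = mk (monomial (Finsupp.equivFunOnFinite.symm b) 1) := by
      rw [mk_monomial, one_smul]; rfl
    rw [this, cf_mk h, coeff_monomial]
    simp only [EmbeddingLike.apply_eq_iff_eq, h, implies_true, and_true, eq_comm]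
  · rw [cf_of_not h, if_neg fun h' => h h'.2]

/-- the box of admissible exponents -/
def box (p : ℕ) (σ : Type) [Fintype σ] [DecidableEq σ] : Finset (σ → ℕ) :=
  Fintype.piFinset fun _ => range p

theorem mem_box [DecidableEq σ] {a : σ → ℕ} : a ∈ box p σ ↔ ∀ i, a i < p := by
  simp [box]

theorem induction_zm {P : O p K σ → Prop} (h0 : P 0)
    (hm : ∀ (c : K) (a : σ → ℕ), (∀ i, a i < p) → P (c • zm a))
    (hadd : ∀ f g, P f → P g → P (f + g)) (f : O p K σ) : P f := by
  obtain ⟨g, rfl⟩ := mk_surj f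
  induction g using MvPolynomial.induction_on' with
  | monomial a c =>
    rw [mk_monomial]
    by_cases h : ∀ i, a i < p
    · exact hm _ _ h
    · rw [zm_eq_zero h, smul_zero]; exact h0
  | add f g hf hg => rw [map_add]; exact hadd _ _ hf hg

theorem lin_ext {M : Type*} [AddCommMonoid M] [Module K M] {f g : O p K σ →ₗ[K] M}
    (h : ∀ a : σ → ℕ, (∀ i, a i < p) → f (zm a) = g (zm a)) : f = g := by
  ext x
  induction x using induction_zm with
  | h0 => simp
  | hm c a ha => simp [h a ha]
  | hadd a b ha hb => simp [ha, hb]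

theorem sum_cf [DecidableEq σ] (f : O p K σ) : ∑ a ∈ box p σ, cf a f • zm a = f := by
  induction f using induction_zm with
  | h0 => simp
  | hm c b hb =>
    rw [Finset.sum_eq_single b]
    · simp [cf_zm, hb]
    · intro a _ hab; simp [cf_zm, hab]
    · intro h; exact absurd (mem_box.2 hb) h
  | hadd a b ha hb => simp only [map_add, add_smul, sum_add_distrib, ha, hb]

theorem ext_cf {f g : O p K σ} (h : ∀ a : σ → ℕ, (∀ i, a i < p) → cf a f = cf a g) : f = g := by
  classical
  rw [← sum_cf f, ← sum_cf g]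
  exact sum_congr rfl fun a ha => by rw [h a (mem_box.1 ha)]

/-- the monomial basis -/
noncomputable def bas : Basis (σ → Fin p) K (O p K σ) :=
  Basis.mk (v := fun a => zm fun i => (a i : ℕ))
    (by
      classical
      rw [Fintype.linearIndependent_iff]
      intro c hc a
      have := congrArg (cf fun i => (a i : ℕ)) hc
      rw [map_sum, map_zero, Finset.sum_eq_single a] at this
      · simpa [cf_zm] using this
      · intro b _ hb
        rw [map_smul, cf_zm, if_neg, smul_zero]
        rintro ⟨h, -⟩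
        exact hb (funext fun i => Fin.ext (congrFun h i).symm)
      · simp)
    (by
      intro f _
      induction f using induction_zm with
      | h0 => exact zero_mem _
      | hm c a ha =>
        exact Submodule.smul_mem _ _ (Submodule.subset_span ⟨fun i => ⟨a i, ha i⟩, rfl⟩)
      | hadd a b ha hb => exact add_mem (ha trivial) (hb trivial))

theorem bas_apply (a : σ → Fin p) : (bas a : O p K σ) = zm fun i => (a i : ℕ) := by
  simp [bas]

instance : Module.Free K (O p K σ) := Module.Free.of_basis bas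
instance : Module.Finite K (O p K σ) := by classical exact Module.Finite.of_basis bas

theorem zm_mem_pow (a : σ → ℕ) : (zm a : O p K σ) ∈ mx ^ (∑ i, a i) := by
  rw [zm, ← Finset.prod_pow_eq_pow_sum]
  exact Ideal.prod_mem_prod fun i _ => Ideal.pow_mem_pow (z_mem i) _

theorem cf_zero [hp : Fact p.Prime] (f : O p K σ) : cf 0 f = aug f := by
  classical
  have : (cf 0 : O p K σ →ₗ[K] K) = (aug : O p K σ →ₐ[K] K).toLinearMap := by
    refine lin_ext fun a _ => ?_
    rw [cf_zm]
    by_cases h : 0 = a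
    · subst h; simp [hp.out.pos]
    · rw [if_neg fun h' => h h'.1]
      obtain ⟨i, hi⟩ := Function.ne_iff.1 h
      simp only [AlgHom.toLinearMap_apply, zm, map_prod, map_pow, aug_z]
      exact (prod_eq_zero (mem_univ i) (zero_pow (Ne.symm hi))).symm
  rw [this]; rfl

end Mon

/-! ### partial derivatives -/

section Pd
variable [Fact ((p : K) = 0)]

theorem pderiv_mem (i : σ) {f : MvPolynomial σ K} (hf : f ∈ tI p K σ) :
    pderiv i f ∈ tI p K σ := by
  induction hf using Submodule.span_induction with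
  | mem x hx =>
    obtain ⟨j, rfl⟩ := hx
    have : ((p : ℕ) : MvPolynomial σ K) = 0 := by
      rw [← map_natCast (C : K →+* MvPolynomial σ K), (Fact.out : (p : K) = 0), map_zero]
    simp [Derivation.leibniz_pow, this]
  | zero => simp
  | add x y _ _ hx hy => rw [map_add]; exact add_mem hx hy
  | smul r x hx ih =>
    rw [smul_eq_mul, Derivation.leibniz]
    exact add_mem (Ideal.mul_mem_left _ _ ih) (Ideal.mul_mem_right _ _ hx)

/-- partial derivative, as a linear map -/
noncomputable def pdL (i : σ) : O p K σ →ₗ[K] O p K σ :=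
  desc ((mk : MvPolynomial σ K →ₐ[K] O p K σ).toLinearMap ∘ₗ (pderiv i).toLinearMap)
    (fun _ hf => mk_eq_zero.2 (pderiv_mem i hf))

theorem pdL_mk (i : σ) (f : MvPolynomial σ K) : pdL i (mk f : O p K σ) = mk (pderiv i f) := rfl

/-- partial derivative -/
noncomputable def pd (i : σ) : Derivation K (O p K σ) (O p K σ) :=
  Derivation.mk' (pdL i) (by
    intro a b
    obtain ⟨f, rfl⟩ := mk_surj a
    obtain ⟨g, rfl⟩ := mk_surj b
    rw [← map_mul, pdL_mk, pdL_mk, pdL_mk, Derivation.leibniz]
    simp)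

theorem pd_mk (i : σ) (f : MvPolynomial σ K) : pd i (mk f : O p K σ) = mk (pderiv i f) := rfl

theorem pd_z [DecidableEq σ] (i j : σ) : pd i (z j : O p K σ) = if i = j then 1 else 0 := by
  rw [z, pd_mk, pderiv_X]
  by_cases h : i = j
  · subst h; simp
  · simp [h]

@[simp] theorem pd_z_self (i : σ) : pd i (z i : O p K σ) = 1 := by
  classical simp [pd_z]

theorem pd_z_ne {i j : σ} (h : i ≠ j) : pd i (z j : O p K σ) = 0 := by
  classical simp [pd_z, h]

theorem pd_comm (i j : σ) (f : O p K σ) : pd i (pd j f) = pd j (pd i f) := by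
  classical
  induction f using induction with
  | hc c => simp
  | hadd a b ha hb => simp [ha, hb]
  | hz a k ha =>
    simp only [Derivation.leibniz, map_add, smul_eq_mul, ha, pd_z]
    split_ifs <;> simp <;> ring

variable [Fintype σ]

theorem pd_zm [DecidableEq σ] (i : σ) (a : σ → ℕ) :
    pd i (zm a : O p K σ) = a i • zm (a - Pi.single i 1) := by
  have h : ∀ b : σ → ℕ, (zm b : O p K σ) = mk (monomial (Finsupp.equivFunOnFinite.symm b) 1) :=
    fun b => by rw [mk_monomial, one_smul]; rfl
  rw [h a, pd_mk, pderiv_monomial, mk_monomial, one_mul, Nat.cast_smul_eq_nsmul]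
  congr 2
  funext j
  simp [Finsupp.single_apply, Pi.single_apply, eq_comm]



/-- chain rule for an algebra map -/
theorem chain {B M : Type*} [CommRing B] [Algebra K B] [AddCommGroup M] [Module K M] [Module B M]
    [IsScalarTower K B M] (φ : O p K σ →ₐ[K] B) (D : Derivation K B M) (f : O p K σ) :
    D (φ f) = ∑ i, φ (pd i f) • D (φ (z i)) := by
  classical
  induction f using induction with
  | hc c => simp
  | hadd a b ha hb => simp [ha, hb, add_smul, sum_add_distrib]
  | hz a k ha =>
    simp only [map_mul, Derivation.leibniz, ha, smul_eq_mul, add_smul, sum_add_distrib, smul_sum,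
      pd_z, map_add, smul_smul, mul_ite, mul_one, mul_zero, apply_ite φ, map_zero, ite_smul,
      zero_smul, sum_ite_eq', mem_univ, if_true]

theorem cf_pd [DecidableEq σ] (i : σ) (a : σ → ℕ) (f : O p K σ) :
    cf a (pd i f) = (a i + 1) • cf (a + Pi.single i 1) f := by
  induction f using induction_zm with
  | h0 => simp
  | hadd f g hf hg => simp only [map_add, hf, hg, smul_add]
  | hm c b hb =>
    rw [Derivation.map_smul, map_smul, map_smul, pd_zm, map_nsmul, cf_zm, cf_zm,
      smul_comm (a i + 1) c]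
    refine congrArg (c • ·) ?_
    by_cases h : a + Pi.single i 1 = b
    · subst h
      have h1 : a = a + Pi.single i 1 - Pi.single i 1 := by simp
      have h2 : ∀ j, a j < p := fun j => lt_of_le_of_lt (by simp) (hb j)
      rw [if_pos ⟨h1, h2⟩, if_pos ⟨rfl, hb⟩]
      simp
    · rw [if_neg (c := a + Pi.single i 1 = b ∧ _) (fun h' => h h'.1), smul_zero]
      rcases Nat.eq_zero_or_pos (b i) with h0 | h0
      · simp [h0]
      · rw [if_neg, smul_zero]
        rintro ⟨h', -⟩
        apply h
        subst h'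
        funext j
        by_cases hj : j = i
        · subst hj; simp; omega
        · simp [Pi.single_eq_of_ne hj]

/-- `H^0 = K` -/
theorem eq_const_of_pd [hp : Fact p.Prime] {f : O p K σ} (h : ∀ i, pd i f = 0) :
    f = algebraMap K _ (aug f) := by
  classical
  refine ext_cf fun a ha => ?_
  by_cases h0 : a = 0
  · subst h0; simp [cf_zero]
  · obtain ⟨i, hi⟩ := Function.ne_iff.1 h0
    have hi' : a i ≠ 0 := hi
    have h1 := cf_pd i (a - Pi.single i 1) f
    have h2 : a - Pi.single i 1 + Pi.single i 1 = a := by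
      funext j
      by_cases hj : j = i
      · subst hj; simp; omega
      · simp [Pi.single_eq_of_ne hj]
    have h3 : (a - Pi.single i 1 : σ → ℕ) i + 1 = a i := by simp; omega
    rw [h i, map_zero, h2, h3, nsmul_eq_mul] at h1
    have hu := natCast_unit (Fact.out : (p : K) = 0) hi' (ha i)
    rw [hu.mul_right_eq_zero.1 h1.symm, Algebra.algebraMap_eq_smul_one, map_smul, ← zm_zero,
      cf_zm, if_neg fun h' => h0 h'.1, smul_zero]

end Pd

end O

end N255.Dr
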