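import Crest.Agent.N255.Dr.O

/-! The truncated de Rham complex `Om p K σ = O ⊗ Λ[dz]`: ring structure, basis `e S` over `O`,
parity involution, exterior derivative, pull back. -/

set_option autoImplicit false

namespace N255.Dr

open Finset Module

/-- differential forms on the truncated space -/
def Om (p : ℕ) (K : Type) [CommRing K] (σ : Type) : Type :=
  ExteriorAlgebra (O p K σ) (σ → O p K σ)

/-- an auxiliary order on a finite type (only fixes the signs of the basis forms) -/
@[reducible] noncomputable def ord (σ : Type) [Fintype σ] : LinearOrder σ :=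
  LinearOrder.lift' (Fintype.equivFin σ) (Fintype.equivFin σ).injective

open Classical in
/-- sign of `dz^S ∧ dz^T` against `dz^(S ∪ T)`; zero when the sets meet -/
noncomputable def sg {σ : Type} [Fintype σ] (S T : Finset σ) : ℤ :=
  letI := ord σ
  if h : Disjoint S T then
    ((Set.powersetCard.permOfDisjoint (s := Set.powersetCard.ofCard (s := S) rfl)
      (t := Set.powersetCard.ofCard (s := T) rfl) h).sign : ℤˣ)
  else 0

theorem sg_of_not {σ : Type} [Fintype σ] {S T : Finset σ} (h : ¬ Disjoint S T) : sg S T = 0 := by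
  rw [sg, dif_neg h]

theorem sg_mul_self {σ : Type} [Fintype σ] {S T : Finset σ} (h : Disjoint S T) :
    sg S T * sg S T = 1 := by
  rw [sg, dif_pos h, ← Units.val_mul, Int.units_mul_self, Units.val_one]


namespace Om
variable {p : ℕ} {K : Type} [CommRing K] {σ τ ρ : Type}

noncomputable instance : Ring (Om p K σ) :=
  inferInstanceAs (Ring (ExteriorAlgebra (O p K σ) (σ → O p K σ)))

noncomputable instance algO : Algebra (O p K σ) (Om p K σ) :=
  inferInstanceAs (Algebra (O p K σ) (ExteriorAlgebra (O p K σ) (σ → O p K σ)))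

noncomputable instance alg {k : Type} [CommSemiring k] [Algebra k K] : Algebra k (Om p K σ) :=
  inferInstanceAs (Algebra k (ExteriorAlgebra (O p K σ) (σ → O p K σ)))

instance towerO {k : Type} [CommSemiring k] [Algebra k K] :
    IsScalarTower k (O p K σ) (Om p K σ) :=
  inferInstanceAs (IsScalarTower k (O p K σ) (ExteriorAlgebra (O p K σ) (σ → O p K σ)))

instance tower {k : Type} [CommSemiring k] [Algebra k K] : IsScalarTower k K (Om p K σ) :=
  inferInstanceAs (IsScalarTower k K (ExteriorAlgebra (O p K σ) (σ → O p K σ)))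

/-- one-forms from coefficient vectors -/
noncomputable def io : (σ → O p K σ) →ₗ[O p K σ] Om p K σ := ExteriorAlgebra.ι (O p K σ)

theorem io_sq (v : σ → O p K σ) : io v * io v = 0 := ExteriorAlgebra.ι_sq_zero v

theorem io_anti (v w : σ → O p K σ) : io v * io w = -(io w * io v) :=
  eq_neg_of_add_eq_zero_left (ExteriorAlgebra.ι_add_mul_swap v w)

/-- a function as a zero-form -/
noncomputable abbrev fn (f : O p K σ) : Om p K σ := algebraMap (O p K σ) (Om p K σ) f

theorem fn_mul (f : O p K σ) (ω : Om p K σ) : fn f * ω = f • ω := (Algebra.smul_def f ω).symm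

theorem mul_fn (f : O p K σ) (ω : Om p K σ) : ω * fn f = f • ω := by
  rw [← fn_mul, Algebra.commutes]

theorem fn_smul (c : K) (f : O p K σ) : fn (c • f) = c • fn f := by
  rw [fn, fn, Algebra.algebraMap_eq_smul_one, Algebra.algebraMap_eq_smul_one, smul_assoc]

theorem fn_algebraMap (c : K) : fn (algebraMap K (O p K σ) c) = algebraMap K (Om p K σ) c :=
  (IsScalarTower.algebraMap_apply _ _ _ _).symm

theorem ind_io {P : Om p K σ → Prop} (hf : ∀ f, P (fn f)) (hi : ∀ v, P (io v))
    (hmul : ∀ a b, P a → P b → P (a * b)) (hadd : ∀ a b, P a → P b → P (a + b))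
    (ω : Om p K σ) : P ω :=
  ExteriorAlgebra.induction (C := P) hf hi hmul hadd ω

/-- parity involution -/
noncomputable def inv : Om p K σ →ₐ[O p K σ] Om p K σ := CliffordAlgebra.involute

@[simp] theorem inv_io (v : σ → O p K σ) : inv (io v) = -io v := CliffordAlgebra.involute_ι v

@[simp] theorem inv_inv (ω : Om p K σ) : inv (inv ω) = ω := CliffordAlgebra.involute_involute ω

@[simp] theorem inv_fn (f : O p K σ) : inv (fn f) = fn f := inv.commutes f

theorem inv_smul (c : K) (ω : Om p K σ) : inv (c • ω) = c • inv ω := by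
  rw [← algebraMap_smul (O p K σ) c ω, map_smul, algebraMap_smul]

theorem io_mul (v : σ → O p K σ) (ω : Om p K σ) : io v * ω = inv ω * io v := by
  induction ω using ind_io with
  | hf f => rw [inv_fn, mul_fn, fn_mul]
  | hi w => rw [inv_io, io_anti, neg_mul]
  | hmul a b ha hb => rw [← mul_assoc, ha, mul_assoc, hb, map_mul, mul_assoc]
  | hadd a b ha hb => rw [mul_add, ha, hb, map_add, add_mul]


/-- even forms are central -/
theorem comm_of_even {η : Om p K σ} (h : inv η = η) (ω : Om p K σ) : ω * η = η * ω := by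
  induction ω using ind_io with
  | hf f => rw [mul_fn, fn_mul]
  | hi w => rw [io_mul, h]
  | hmul a b ha hb => rw [mul_assoc, hb, ← mul_assoc, ha, mul_assoc]
  | hadd a b ha hb => rw [mul_add, add_mul, ha, hb]


section Fin
variable [DecidableEq σ]

/-- the coordinate one-forms -/
noncomputable def dz (i : σ) : Om p K σ := io (Pi.single i 1)

@[simp] theorem dz_sq (i : σ) : (dz i : Om p K σ) * dz i = 0 := io_sq _

theorem dz_anti (i j : σ) : (dz i : Om p K σ) * dz j = -(dz j * dz i) := io_anti _ _

@[simp] theorem inv_dz (i : σ) : inv (dz i : Om p K σ) = -dz i := inv_io _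

theorem dz_mul (i : σ) (ω : Om p K σ) : dz i * ω = inv ω * dz i := io_mul _ _

variable [Fintype σ]

theorem io_eq (v : σ → O p K σ) : io v = ∑ i, v i • dz i := by
  conv_lhs => rw [pi_eq_sum_univ' v]
  simp [map_sum, dz]

theorem induction {P : Om p K σ → Prop} (hf : ∀ f, P (fn f)) (hz : ∀ i, P (dz i))
    (hmul : ∀ a b, P a → P b → P (a * b)) (hadd : ∀ a b, P a → P b → P (a + b))
    (ω : Om p K σ) : P ω := by
  refine ind_io hf (fun v => ?_) hmul hadd ω
  rw [io_eq]
  refine Finset.sum_induction _ P hadd (by simpa using hf 0) fun i _ => ?_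
  rw [← fn_mul]
  exact hmul _ _ (hf _) (hz _)

theorem ringHom_ext {B F : Type*} [Semiring B] [FunLike F (Om p K σ) B]
    [RingHomClass F (Om p K σ) B] {f g : F} (h1 : ∀ a, f (fn a) = g (fn a))
    (h2 : ∀ i, f (dz i) = g (dz i)) : f = g := by
  refine DFunLike.ext _ _ fun ω => ?_
  induction ω using induction with
  | hf a => exact h1 a
  | hz i => exact h2 i
  | hmul a b ha hb => rw [map_mul, map_mul, ha, hb]
  | hadd a b ha hb => rw [map_add, map_add, ha, hb]

omit [DecidableEq σ] in
/-- the basis `dz^S` over the functions -/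
noncomputable def eb : Basis (Finset σ) (O p K σ) (Om p K σ) :=
  letI := ord σ
  (Pi.basisFun (O p K σ) σ).ExteriorAlgebra

omit [DecidableEq σ] in
/-- the constant form `dz^S` -/
noncomputable def e (S : Finset σ) : Om p K σ := eb S

omit [DecidableEq σ] in
/-- coefficient of `dz^S` -/
noncomputable def cE (S : Finset σ) : Om p K σ →ₗ[O p K σ] O p K σ := eb.coord S

theorem cE_e (S T : Finset σ) : cE S (e T : Om p K σ) = if S = T then 1 else 0 := by
  rw [cE, e, Basis.coord_apply, Basis.repr_self, Finsupp.single_apply]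
  simp only [eq_comm]

omit [DecidableEq σ] in
theorem sum_cE (ω : Om p K σ) : ∑ S, cE S ω • e S = ω := eb.sum_repr ω

theorem e_mul (S T : Finset σ) : (e S : Om p K σ) * e T = sg S T • e (S ∪ T) := by
  let _ := ord σ
  by_cases h : Disjoint S T
  · have := ExteriorAlgebra.basis_mul_of_disjoint (Pi.basisFun (O p K σ) σ)
      (Set.powersetCard.ofCard (s := S) rfl) (Set.powersetCard.ofCard (s := T) rfl) h
    rw [sg, dif_pos h, ← Finset.disjUnion_eq_union S T h]
    exact this
  · rw [sg_of_not h, zero_smul]
    exact ExteriorAlgebra.basis_mul_of_not_disjoint (Pi.basisFun (O p K σ) σ)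
      (Set.powersetCard.ofCard (s := S) rfl) (Set.powersetCard.ofCard (s := T) rfl) h

omit [DecidableEq σ] in
@[simp] theorem e_empty : (e ∅ : Om p K σ) = 1 := by
  let _ := ord σ
  exact (ExteriorAlgebra.basis_apply_ofCard (Pi.basisFun (O p K σ) σ) (n := 0) (s := ∅) rfl).trans
    (ExteriorAlgebra.ιMulti_zero_apply _)

@[simp] theorem e_single (i : σ) : (e {i} : Om p K σ) = dz i := by
  let _ := ord σ
  refine (ExteriorAlgebra.basis_apply_ofCard (Pi.basisFun (O p K σ) σ) (n := 1) (s := {i})
    rfl).trans ?_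
  rw [ExteriorAlgebra.ιMulti_family, ExteriorAlgebra.ιMulti_succ_apply,
    ExteriorAlgebra.ιMulti_zero_apply, mul_one, Function.comp_apply,
    Set.powersetCard.ofFinEmbEquiv_symm_apply]
  have : (Finset.orderEmbOfFin (Set.powersetCard.ofCard (s := ({i} : Finset σ)) (n := 1) rfl).val
      (Set.powersetCard.ofCard (s := ({i} : Finset σ)) (n := 1) rfl).prop) 0 = i :=
    Finset.mem_singleton.1 (Finset.orderEmbOfFin_mem _ _ _)
  rw [this, Pi.basisFun_apply]
  rfl

theorem dz_mul_e (i : σ) (S : Finset σ) :
    (dz i : Om p K σ) * e S = sg {i} S • e (insert i S) := by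
  rw [← e_single, e_mul]; rfl

theorem e_insert {i : σ} {S : Finset σ} (h : i ∉ S) :
    (e (insert i S) : Om p K σ) = sg {i} S • (dz i * e S) := by
  rw [dz_mul_e, smul_smul, sg_mul_self (by simpa using h), one_smul]

omit [DecidableEq σ] in
theorem ind_e {P : Om p K σ → Prop} (h0 : P 0) (he : ∀ (f : O p K σ) S, P (f • e S))
    (hadd : ∀ a b, P a → P b → P (a + b)) (ω : Om p K σ) : P ω := by
  rw [← sum_cE ω]
  exact Finset.sum_induction _ P hadd h0 fun S _ => he _ S


omit [DecidableEq σ] in
theorem inv_e (S : Finset σ) : inv (e S : Om p K σ) = (-1 : ℤ) ^ S.card • e S := by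
  classical
  induction S using Finset.induction_on with
  | empty => simp
  | insert i S hi ih =>
    rw [e_insert hi, map_zsmul, map_mul, ih, inv_dz, card_insert_of_notMem hi,
      pow_succ, mul_smul_comm, mul_neg, mul_one, neg_mul, smul_neg, smul_neg, neg_smul, smul_comm]


/-! ### coefficientwise derivations and the exterior derivative -/

omit [DecidableEq σ] in
/-- a linear operator on functions acting on the coefficients of a form -/
noncomputable def cw (L : O p K σ →ₗ[K] O p K σ) : Om p K σ →ₗ[K] Om p K σ where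
  toFun ω := ∑ S, L (cE S ω) • e S
  map_add' a b := by simp [add_smul, sum_add_distrib]
  map_smul' c a := by
    simp only [RingHom.id_apply, smul_sum]
    refine sum_congr rfl fun S _ => ?_
    rw [← algebraMap_smul (O p K σ) c a, map_smul, algebraMap_smul, map_smul, smul_assoc]

omit [DecidableEq σ] in
theorem cw_e (L : O p K σ →ₗ[K] O p K σ) (f : O p K σ) (S : Finset σ) :
    cw L (f • e S) = L f • e S := by
  classical
  change ∑ T, L (cE T (f • e S)) • e T = _
  rw [Finset.sum_eq_single S]
  · simp [cE_e]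
  · intro T _ hT; simp [cE_e, hT]
  · simp


omit [DecidableEq σ] in
theorem cw_der_mul (D : Derivation K (O p K σ) (O p K σ)) (a b : Om p K σ) :
    cw D.toLinearMap (a * b) = cw D.toLinearMap a * b + a * cw D.toLinearMap b := by
  classical
  induction a using ind_e with
  | h0 => simp
  | hadd a a' ha ha' => simp only [add_mul, map_add, ha, ha']; abel
  | he f S =>
    induction b using ind_e with
    | h0 => simp
    | hadd b b' hb hb' => simp only [mul_add, map_add, hb, hb']; abel
    | he g T =>
      rw [cw_e, cw_e, smul_mul_smul_comm, smul_mul_smul_comm, smul_mul_smul_comm, e_mul,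
        smul_comm, map_zsmul, cw_e, ← add_smul, smul_comm]
      congr 1
      simp only [Derivation.coeFn_coe, Derivation.leibniz, smul_eq_mul]
      ring

omit [DecidableEq σ] in
theorem cw_inv (L : O p K σ →ₗ[K] O p K σ) (ω : Om p K σ) : cw L (inv ω) = inv (cw L ω) := by
  induction ω using ind_e with
  | h0 => simp
  | he f S =>
    rw [cw_e, map_smul inv, map_smul inv, inv_e, smul_comm, map_zsmul, cw_e, smul_comm]
  | hadd a b ha hb => simp only [map_add, ha, hb]

variable [Fact ((p : K) = 0)]

omit [DecidableEq σ] in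
/-- coefficientwise partial derivative -/
noncomputable def pdO (i : σ) : Om p K σ →ₗ[K] Om p K σ := cw (O.pd i).toLinearMap

omit [DecidableEq σ] in
theorem pdO_e (i : σ) (f : O p K σ) (S : Finset σ) :
    pdO i (f • (e S : Om p K σ)) = O.pd i f • e S := cw_e _ _ _

omit [DecidableEq σ] in
theorem pdO_mul (i : σ) (a b : Om p K σ) : pdO i (a * b) = pdO i a * b + a * pdO i b :=
  cw_der_mul _ _ _

omit [DecidableEq σ] in
theorem pdO_comm (i j : σ) (ω : Om p K σ) : pdO i (pdO j ω) = pdO j (pdO i ω) := by
  induction ω using ind_e with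
  | h0 => simp
  | he f S => simp only [pdO_e, O.pd_comm i j]
  | hadd a b ha hb => simp only [map_add, ha, hb]

omit [DecidableEq σ] in
theorem pdO_fn (i : σ) (f : O p K σ) : pdO i (fn f) = fn (O.pd i f) := by
  rw [← mul_one (fn f), fn_mul, ← e_empty, pdO_e, e_empty, ← fn_mul, mul_one]

theorem pdO_dz (i j : σ) : pdO i (dz j : Om p K σ) = 0 := by
  rw [← e_single, ← one_smul (O p K σ) (e {j}), pdO_e]; simp

/-- exterior derivative -/
noncomputable def d : Om p K σ →ₗ[K] Om p K σ := ∑ i, LinearMap.mulLeft K (dz i) ∘ₗ pdO i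

theorem d_apply (ω : Om p K σ) : d ω = ∑ i, dz i * pdO i ω := by
  simp [d, LinearMap.sum_apply]

theorem d_mul (a b : Om p K σ) : d (a * b) = d a * b + inv a * d b := by
  simp only [d_apply, pdO_mul, mul_add, sum_add_distrib, sum_mul, mul_sum, ← mul_assoc,
    dz_mul _ a]

theorem d_fn (f : O p K σ) : d (fn f) = ∑ i, O.pd i f • dz i := by
  simp only [d_apply, pdO_fn, mul_fn]

theorem d_fn_eq_io (f : O p K σ) : d (fn f) = io fun i => O.pd i f := by rw [d_fn, io_eq]

@[simp] theorem d_z (i : σ) : d (fn (O.z i : O p K σ)) = dz i := by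
  simp [d_fn, O.pd_z]

@[simp] theorem d_dz (i : σ) : d (dz i : Om p K σ) = 0 := by simp [d_apply, pdO_dz]

@[simp] theorem d_e (S : Finset σ) : d (e S : Om p K σ) = 0 := by
  rw [d_apply]
  refine sum_eq_zero fun i _ => ?_
  rw [← one_smul (O p K σ) (e S), pdO_e]; simp

@[simp] theorem d_one : d (1 : Om p K σ) = 0 := by rw [← e_empty, d_e]


theorem d_inv (ω : Om p K σ) : d (inv ω) = -inv (d ω) := by
  simp only [d_apply, map_sum, map_mul, inv_dz, neg_mul, sum_neg_distrib, neg_neg, pdO, cw_inv]

theorem inv_d (ω : Om p K σ) : inv (d ω) = -d (inv ω) := by rw [d_inv, neg_neg]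

@[simp] theorem inv_d_fn (f : O p K σ) : inv (d (fn f)) = -d (fn f) := by rw [inv_d, inv_fn]



@[simp] theorem d_d (ω : Om p K σ) : d (d ω) = 0 := by
  have h : ∀ i, d (dz i * pdO i ω) = -∑ j, dz i * dz j * pdO j (pdO i ω) := by
    intro i
    rw [d_mul, d_dz, zero_mul, zero_add, inv_dz, neg_mul, d_apply, mul_sum]
    simp only [mul_assoc]
  rw [d_apply ω, map_sum]
  simp only [h, sum_neg_distrib, neg_eq_zero]
  rw [← Finset.sum_product']
  refine Finset.sum_involution (fun x _ => x.swap) ?_ ?_ (by simp) (by simp)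
  · rintro ⟨i, j⟩ _
    simp only [Prod.swap_prod_mk]
    rw [dz_anti j i, pdO_comm i j, neg_mul, add_neg_cancel]
  · rintro ⟨i, j⟩ _ hne h
    apply hne
    have : j = i := congrArg Prod.fst h
    subst this
    simp

/-- `d` on functions as a derivation -/
noncomputable def dD : Derivation K (O p K σ) (Om p K σ) :=
  Derivation.mk' (d ∘ₗ (IsScalarTower.toAlgHom K (O p K σ) (Om p K σ)).toLinearMap) (by
    intro a b
    change d (fn (a * b)) = a • d (fn b) + b • d (fn a)
    rw [fn, map_mul, d_mul, inv_fn, fn_mul, mul_fn, add_comm])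

theorem dD_apply (f : O p K σ) : dD f = d (fn f) := rfl


@[simp] theorem d_algebraMap (c : K) : d (algebraMap K (Om p K σ) c) = 0 := by
  rw [Algebra.algebraMap_eq_smul_one, map_smul, d_one, smul_zero]


end Fin

end Om

end N255.Dr
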